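import Vale.Agent.P141.H186.CloseM

/-!
# P141, line (A): the stage closed for one slot, bottom level below the cap

`H186.CloseM.close_m` for a stage statement which is only known for `e₂ ≤ τ` (as in `H581.stageY`,
whose hypothesis `hAB'` is then part of `hAB`).
-/

namespace Vale.Agent.P141.H972

open Vale.Agent.P141.H186.PriceC Vale.Agent.P141.H186.CloseY Vale.Agent.P141.H186.CloseM

noncomputable section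

/-- the conclusion of `H581.stageY`, bottom level `e₂ ≤ τ` -/
def StageTau (RAB RBC RCA : ℝ → ℝ → ℝ) (τ cC T : ℝ) : Prop :=
  ∀ (P₀ P₁ QA QB Z κ' g σ e₂ : ℝ) (D L₀ L₁ : ℕ), 0 ≤ P₀ → 0 ≤ P₁ → 0 ≤ QA → 0 ≤ QB → 0 ≤ Z →
    0 ≤ κ' → 0 < g → 0 < σ → 0 < e₂ → e₂ ≤ τ →
    τ / 2 ^ (D - 1) ≤ σ → σ ≤ e₂ → cC / 2 ^ (L₀ - 1) ≤ g → cC / 2 ^ (L₁ - 1) ≤ e₂ →
    (∀ h, 0 < h → h ≤ τ → RAB h h ≤ P₀ * h ^ 2) →
    (∀ x, g ≤ x → x ≤ cC → √(RBC τ x * RCA x τ) ≤ κ' * x) →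
    RCA g τ ≤ QA → RBC τ g ≤ QB →
    (∀ x, e₂ ≤ x → x ≤ g → RCA x σ ≤ P₁ * x ^ 2) →
    (∀ h, 0 < h → h ≤ e₂ → RBC h h ≤ Z * h ^ 2) →
    (∀ h, 0 < h → h ≤ e₂ → RCA h h ≤ Z * h ^ 2) →
    T ≤ 6 * κ' * L₀ + 6 * D * (√(P₀ * QA) + √(P₀ * QB)) + 6 * L₁ * √(P₁ * QB) +
      54 * (P₀ + Z) * e₂

/-- **The stage closed for one slot.** -/
theorem close_v' {v H Λ N K τ cC E EA EV P₀ P₁ Z T : ℝ} {RAB RBC RCA : ℝ → ℝ → ℝ}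
    (hv : 0 < v) (hv1 : v ≤ 1) (hH : 1 ≤ H) (hK : 1 ≤ K) (hΛ : 0 ≤ Λ) (hN : 0 ≤ N) (hτ : 0 < τ)
    (hE : 0 ≤ E) (hEA : 0 ≤ EA) (hEV : 0 ≤ EV) (hP₀ : 0 ≤ P₀) (hP₁ : 0 ≤ P₁) (hZ : 0 ≤ Z)
    (hst : StageTau RAB RBC RCA τ cC T) (nCA : ∀ x x', 0 ≤ RCA x x')
    (hAB : ∀ h, 0 < h → h ≤ τ → RAB h h ≤ P₀ * h ^ 2)
    (hBC : ∀ x, v ^ 2 * τ ≤ x → RBC τ x ≤ Λ * (√(x ^ 2 * E * (τ ^ 2 * EV)) + τ ^ 2 * E))
    (hCA : ∀ x, v ^ 2 * τ ≤ x → RCA x τ ≤ Λ * (√(x ^ 2 * E * (τ ^ 2 * EA)) + τ ^ 2 * E))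
    (hLow : ∀ x x', 0 < x' → K * x' ≤ x → x ≤ τ → RCA x x' ≤ P₁ * x ^ 2)
    (hZB : ∀ h, 0 < h → h ≤ τ → RBC h h ≤ Z * h ^ 2)
    (hZA : ∀ h, 0 < h → h ≤ τ → RCA h h ≤ Z * h ^ 2)
    (nP₀ : P₀ ≤ N) (nP₁ : P₁ ≤ N) (nEA : EA ≤ N) (nE : E ≤ N * v ^ 4) (nEV : EV * v ^ 4 ≤ N)
    (nZ : Z ≤ N * H) (nC : cC ≤ H * τ) :
    T ≤ 162 * (1 + Λ) * (1 + Real.log (K * H / v ^ 8)) * (N * τ * v) := by
  have hv2 : 0 < v ^ 2 := by positivity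
  have hv21 : v ^ 2 ≤ 1 := pow_le_one₀ hv.le hv1
  have hg0 : 0 < v ^ 2 * τ := mul_pos hv2 hτ
  have hgτ : v ^ 2 * τ ≤ τ := mul_le_of_le_one_left hτ.le hv21
  have he0 : 0 < v ^ 2 * τ / (1 + H) := by positivity
  have heg : v ^ 2 * τ / (1 + H) ≤ v ^ 2 * τ := div_le_self hg0.le (by linarith)
  generalize hge : v ^ 2 * τ / (1 + H) = e₂ at he0 heg
  have hHe : (1 + H) * e₂ = v ^ 2 * τ := by rw [← hge]; field_simp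
  have heτ : e₂ ≤ τ := heg.trans hgτ
  have hK0 : 0 < K := by linarith
  have hσ0 : 0 < e₂ / K := by positivity
  have hσe : e₂ / K ≤ e₂ := div_le_self he0.le hK
  have hKσ : K * (e₂ / K) = e₂ := by field_simp
  obtain ⟨D, L₀, L₁, hD1, hL1, hM1, bD, bL, bM⟩ := levels_v hv hv1 hH hK hτ he0 hHe nC
  have hℓ1 : 1 ≤ 1 + Real.log (K * H / v ^ 8) := by
    have : 0 ≤ Real.log (K * H / v ^ 8) := by
      refine Real.log_nonneg ?_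
      rw [le_div_iff₀ (by positivity)]
      have hv81 : v ^ 8 ≤ 1 := pow_le_one₀ hv.le hv1
      nlinarith
    linarith
  -- the pair sums above `v ^ 2 τ`
  have kA : ∀ x, v ^ 2 * τ ≤ x → RCA x τ ≤ x * τ * (N * (Λ * (v ^ 2 + v ^ 2))) := by
    intro x hx
    refine (hCA x hx).trans (raw_above hΛ hE hEA hτ (hg0.le.trans hx) hv2 hx hN
      (e := v ^ 2) (v1 := v ^ 2) hv2.le hv2.le ?_ ?_ le_rfl)
    · calc E * EA ≤ (N * v ^ 4) * N := mul_le_mul nE nEA hEA (by positivity)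
        _ = _ := by ring
    · exact nE.trans (le_of_eq (by ring))
  have kB : ∀ x, v ^ 2 * τ ≤ x → RBC τ x ≤ x * τ * (N * (Λ * (1 + 1))) := by
    intro x hx
    refine (hBC x hx).trans (raw_above hΛ hE hEV hτ (hg0.le.trans hx) hv2 hx hN
      (e := 1) (v1 := 1) zero_le_one zero_le_one ?_ ?_ le_rfl)
    · calc E * EV ≤ (N * v ^ 4) * EV := mul_le_mul_of_nonneg_right nE hEV
        _ = N * (EV * v ^ 4) := by ring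
        _ ≤ N * N := mul_le_mul_of_nonneg_left nEV hN
        _ = _ := by ring
    · refine nE.trans ?_
      have : v ^ 4 ≤ v ^ 2 * 1 := by nlinarith
      exact mul_le_mul_of_nonneg_left this hN
  have hT : ∀ x, v ^ 2 * τ ≤ x → x ≤ cC → √(RBC τ x * RCA x τ) ≤ 2 * Λ * (N * τ * v) * x := by
    intro x hx _
    have hx0 : 0 ≤ x := hg0.le.trans hx
    refine sqrt_le_of (by positivity) ?_
    have h1 : RBC τ x * RCA x τ ≤ (x * τ * (N * (Λ * (1 + 1)))) *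
        (x * τ * (N * (Λ * (v ^ 2 + v ^ 2)))) := mul_le_mul (kB x hx) (kA x hx) (nCA _ _)
          (by positivity)
    exact h1.trans (le_of_eq (by ring))
  have fin := hst P₀ P₁ ((v ^ 2 * τ) * τ * (N * (Λ * (v ^ 2 + v ^ 2))))
    ((v ^ 2 * τ) * τ * (N * (Λ * (1 + 1)))) Z (2 * Λ * (N * τ * v)) (v ^ 2 * τ) (e₂ / K) e₂ D L₀ L₁
    hP₀ hP₁ (by positivity) (by positivity) hZ (by positivity) hg0 hσ0 he0 heτ hD1 hσe hL1 hM1 hAB hT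
    (kA _ le_rfl) (kB _ le_rfl)
    (fun x hx hx' => hLow x (e₂ / K) hσ0 (hKσ.le.trans hx) (hx'.trans hgτ))
    (fun h h0 h1 => hZB h h0 (h1.trans heτ)) (fun h h0 h1 => hZA h h0 (h1.trans heτ))
  exact fin.trans (fin_v hv hv1 hH hΛ hN hτ he0 hHe nP₀ nP₁ nZ hℓ1 bD bL bM)

/-- **The stage closed for one slot, letters `m = v ^ 8`.** -/
theorem close_m' {m H Λ N K τ cC E EA EV P₀ P₁ Z T : ℝ} {RAB RBC RCA : ℝ → ℝ → ℝ}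
    (hm : 0 < m) (hm1 : m ≤ 1) (hH : 1 ≤ H) (hK : 1 ≤ K) (hΛ : 0 ≤ Λ) (hN : 0 ≤ N) (hτ : 0 < τ)
    (hE : 0 ≤ E) (hEA : 0 ≤ EA) (hEV : 0 ≤ EV) (hP₀ : 0 ≤ P₀) (hP₁ : 0 ≤ P₁) (hZ : 0 ≤ Z)
    (hst : StageTau RAB RBC RCA τ cC T) (nCA : ∀ x x', 0 ≤ RCA x x')
    (hAB : ∀ h, 0 < h → h ≤ τ → RAB h h ≤ P₀ * h ^ 2)
    (hBC : ∀ x, m ^ (1 / 4 : ℝ) * τ ≤ x →
      RBC τ x ≤ Λ * (√(x ^ 2 * E * (τ ^ 2 * EV)) + τ ^ 2 * E))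
    (hCA : ∀ x, m ^ (1 / 4 : ℝ) * τ ≤ x →
      RCA x τ ≤ Λ * (√(x ^ 2 * E * (τ ^ 2 * EA)) + τ ^ 2 * E))
    (hLow : ∀ x x', 0 < x' → K * x' ≤ x → x ≤ τ → RCA x x' ≤ P₁ * x ^ 2)
    (hZB : ∀ h, 0 < h → h ≤ τ → RBC h h ≤ Z * h ^ 2)
    (hZA : ∀ h, 0 < h → h ≤ τ → RCA h h ≤ Z * h ^ 2)
    (nP₀ : P₀ ≤ N) (nP₁ : P₁ ≤ N) (nEA : EA ≤ N) (nE : E ≤ N * √m) (nEV : EV * √m ≤ N)
    (nZ : Z ≤ N * H) (nC : cC ≤ H * τ) :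
    T ≤ 162 * (1 + Λ) * (1 + Real.log (K * H / m)) * (N * τ * m ^ (1 / 8 : ℝ)) := by
  set v : ℝ := m ^ (1 / 8 : ℝ) with hv
  have hv0 : 0 < v := Real.rpow_pos_of_pos hm _
  have hv1 : v ≤ 1 := Real.rpow_le_one hm.le hm1 (by norm_num)
  have e2 : m ^ (1 / 4 : ℝ) = v ^ 2 := by
    rw [hv, ← Real.rpow_natCast (m ^ (1 / 8 : ℝ)) 2, ← Real.rpow_mul hm.le]
    norm_num
  have e4 : √m = v ^ 4 := by
    rw [hv, ← Real.rpow_natCast (m ^ (1 / 8 : ℝ)) 4, ← Real.rpow_mul hm.le, Real.sqrt_eq_rpow]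
    norm_num
  have e8 : m = v ^ 8 := by
    rw [hv, ← Real.rpow_natCast (m ^ (1 / 8 : ℝ)) 8, ← Real.rpow_mul hm.le]
    norm_num
  rw [e2] at hBC hCA
  rw [e4] at nE nEV
  have h := close_v' hv0 hv1 hH hK hΛ hN hτ hE hEA hEV hP₀ hP₁ hZ hst nCA hAB hBC hCA hLow hZB hZA
    nP₀ nP₁ nEA nE nEV nZ nC
  rw [← e8] at h
  exact h

end

end Vale.Agent.P141.H972
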