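import Vale.Agent.P141.H747.StageM
import Vale.Agent.P141.H939.PriceB

/-!
# P141, line (A): the node forms of the flow part, the three open pair statements of one slot

Letters of one slot on one plane of one grid, one root and one choice of labels:
`K M R A b C L e h j q t τ m C0 H N`; `m` the energy of the slot, `ε = m ^ (1 / 4)`, `τ` the cap of
`A` and `b`.

* `PCA` : the pair `(C~, A)` above `m ^ (1 / 4) τ`;
* `PBC` : the pair `(b, C~)` above `m ^ (1 / 4) τ`;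
* `PZB` : the pair `(b, C~)` at equal levels below `τ`, crude, number `Z ≤ N H / m`;
* `NumQ D Φ` : the quantifiers of `H939.PriceB` at `ez = 1` (enough by homogeneity), for every small
  power `th` of the energy number;
* `NumQ.mono`, `NumQ.and`.
-/

namespace Vale.Agent.P141.H972

open Finset Matrix
open Vale.Agent.P141.PL (Pt iv cx cb)
open Vale.Agent.P141.PL.H315 (Tri)
open Vale.Agent.P141.H958 (lbs)
open Vale.Agent.P141.H581 (RX)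
open Vale.Agent.P141.H747 (sG sL MA MB MC)
open Vale.Agent.P141.H795 (E8)
open Vale.Agent.P141.H677 (rt)
open Vale.Agent.P141.H677.Sk (FamA FamV Slt SlotN)
open Vale.Agent.P141.H48 (US ES)
open Vale.Agent.P141.H305 (ClsM kapM)
open Vale.Agent.P141.H401 (Bun)

noncomputable section

open scoped Classical

set_option linter.unusedSectionVars false

/-- statements about one slot on one plane of one grid, one root, one choice of labels: letters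
`K M R A b C L e h j q t τ m C0 H N` -/
abbrev StP : Type 1 :=
  ∀ (ι : Type) [Fintype ι] [DecidableEq ι], ℕ → Pt → Slt ι → FamA → FamV ι → FamV ι → ℕ →
    (ι ⊕ ι → ℤ) → Pt → ℤ → Pt → ℤ → ℝ → ℝ → ℝ → ℝ → ℝ → Prop

/-- **The pair `(C~, A)`.** -/
def PCA : StP := fun _ι _ _ K M R A _b C L e h j q t τ m C0 H N =>
  ∃ Λ E EA : ℝ, 0 ≤ Λ ∧ 0 ≤ E ∧ 0 ≤ EA ∧ Λ ≤ C0 * (1 + Real.log (H / m)) ^ 3 ∧
    E ≤ N * √m ∧ EA ≤ N ∧ ∀ x, m ^ (1 / 4 : ℝ) * τ ≤ x →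
      RX (iv K t) (K + L) (fun x0 => sL L (sG K M (-x0) h j q)) x τ
          (MC K M R C L e (m ^ (1 / 4 : ℝ)) h) (MA K M A L h) ≤
        4 ^ L * (Λ * (√(x ^ 2 * E * (τ ^ 2 * EA)) + τ ^ 2 * E))

/-- **The pair `(b, C~)`.** -/
def PBC : StP := fun _ι _ _ K M R _A b C L e h j q t τ m C0 H N =>
  ∃ Λ E EV : ℝ, 0 ≤ Λ ∧ 0 ≤ E ∧ 0 ≤ EV ∧ Λ ≤ C0 * (1 + Real.log (H / m)) ^ 3 ∧
    E ≤ N * √m ∧ EV * √m ≤ N ∧ ∀ x, m ^ (1 / 4 : ℝ) * τ ≤ x →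
      RX (iv K t) (K + L) (fun x0 => sL L (sG K M (-x0) h j q)) τ x
          (MB K M b L e h) (MC K M R C L e (m ^ (1 / 4 : ℝ)) h) ≤
        4 ^ L * (Λ * (√(x ^ 2 * E * (τ ^ 2 * EV)) + τ ^ 2 * E))

/-- **The pair `(b, C~)` at equal levels**, crude. -/
def PZB : StP := fun _ι _ _ K M R _A b C L e h j q t τ m _C0 H N =>
  ∃ Z : ℝ, 0 ≤ Z ∧ Z * m ≤ N * H ∧ ∀ x, 0 < x → x ≤ τ →
      RX (iv K t) (K + L) (fun x0 => sL L (sG K M (-x0) h j q)) x x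
          (MB K M b L e h) (MC K M R C L e (m ^ (1 / 4 : ℝ)) h) ≤ 4 ^ L * (Z * x ^ 2)

/-- **The quantifiers.** -/
def NumQ (D : Bun) (Φ : StP) : Prop :=
  ∀ a : ℝ, 0 < a → a ≤ 1 →
  ∃ es : ℝ, 0 < es ∧ es ≤ 1 ∧ ∀ e0 : ℝ, 0 < e0 → e0 ≤ es →
  ∃ k8s : ℝ, 0 < k8s ∧ ∀ k8 : ℝ, 0 < k8 → k8 ≤ k8s →
  ∃ k3s : ℝ, 0 < k3s ∧ ∀ k3 : ℝ, 0 < k3 → k3 ≤ k3s →
  ∃ ths : ℝ, 0 < ths ∧ ∀ th : ℝ, 0 < th → th ≤ ths →
  ∃ (p : ℕ) (b c1 d1 : ℝ), 0 ≤ b ∧ 0 < c1 ∧ 0 < d1 ∧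
  ∀ c : ℝ, 0 ≤ c → c ≤ c1 → ∀ d : ℝ, 0 < d → d ≤ d1 →
  ∀ Kt e cP L : ℝ, 0 < Kt → 1 ≤ e → 0 ≤ cP → 1 ≤ L → ∀ CD : ℝ, 1 ≤ CD →
  ∃ (a' : ℕ) (C0 : ℝ), 1 ≤ C0 ∧
  ∀ t : ℝ, 0 < t → t ≤ 1 → ∀ (n : ℕ) (F1 F2 F3 : ℕ → Pt → ℝ),
    US n (Kt * t ^ (1 - c)) e cP F1 → US n (Kt * t ^ (1 - c)) e cP F3 → ES n 1 cP F2 →
  ∀ o : ℤ, o = 1 ∨ o = -1 → ∀ K ≤ n, ∀ (x : Pt) (ι : Type) [Fintype ι] [DecidableEq ι]
    (s r : ℝ) (U : Tri) (g : ℤ → ℤ → ℝ) (u v : ℤ → ℤ → ι → ℝ), 0 < s → 1 ≤ r →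
    ClsM K x s r (L * t ^ (2 - c) * √s) (kapM L t a s r) U g u v →
    ∀ (A : FamA) (b' C' : FamV ι),
      D ι ⟨a, e0, k8, k3, c, d, Kt, e, cP, L, CD, t⟩ n 1 F1 F2 F3 o K x s r U g u v A b' C' →
    ∀ (R : Slt ι) (κ E : ℝ), 1 ≤ κ → 0 < E → E ≤ L + 3780000 →
      SlotN ((⟨a, e0, k8, k3, c, d, Kt, e, cP, L, CD, t⟩ : H401.Num).al U K) o K (cx K x)
        ((⟨a, e0, k8, k3, c, d, Kt, e, cP, L, CD, t⟩ : H401.Num).lam s r) u R κ E →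
    ∀ h ∈ cb K 0, ∀ j ∈ Icc (0 : ℤ) 2, ∀ q ∈ E8, ∀ t' ∈ rt (cx K x),
    ∀ (Lb : ℕ) (eb : ι ⊕ ι → ℤ), Function.Injective eb → (∀ i, eb i ∈ lbs Lb) →
      Φ ι K (cx K x) R A b' C' Lb eb h j q t'
        (2 * (⟨a, e0, k8, k3, c, d, Kt, e, cP, L, CD, t⟩ : H401.Num).th s r)
        ((t / r) ^ (e0 / 2) * (E / (L + 3780000)) ^ th) C0 ((C0 * κ * (r / t)) ^ a')
        (C0 * ((1 + Real.log κ + Real.log (r / t)) ^ p *
          (t ^ (-(b * (c + d))) * s * 8 ^ K)))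

/-- monotone in `C0 H N` -/
def MonoP (Φ : StP) : Prop :=
  ∀ (ι : Type) [Fintype ι] [DecidableEq ι] (K : ℕ) (M : Pt) (R : Slt ι) (A : FamA)
    (b C : FamV ι) (L : ℕ) (e : ι ⊕ ι → ℤ) (h : Pt) (j : ℤ) (q : Pt) (t : ℤ)
    (τ m C0 H N C0' H' N' : ℝ), 0 < m → m ≤ 1 → 1 ≤ C0 → C0 ≤ C0' → 1 ≤ H → H ≤ H' → 0 ≤ N →
    N ≤ N' → Φ ι K M R A b C L e h j q t τ m C0 H N → Φ ι K M R A b C L e h j q t τ m C0' H' N'

theorem log_mono3 {m C0 H C0' H' : ℝ} (hm : 0 < m) (hm1 : m ≤ 1) (hC : 1 ≤ C0) (hCC : C0 ≤ C0')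
    (hH : 1 ≤ H) (hHH : H ≤ H') :
    C0 * (1 + Real.log (H / m)) ^ 3 ≤ C0' * (1 + Real.log (H' / m)) ^ 3 := by
  have h1 : 1 ≤ H / m := by
    rw [le_div_iff₀ hm]
    linarith
  have h2 : H / m ≤ H' / m := by gcongr
  have h3 : 0 ≤ Real.log (H / m) := Real.log_nonneg h1
  have h4 : Real.log (H / m) ≤ Real.log (H' / m) := Real.log_le_log (by linarith) h2
  have h5 : 0 ≤ C0' := by linarith
  gcongr

theorem monoP_PCA : MonoP PCA := by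
  intro ι _ _ K M R A b C L e h j q t τ m C0 H N C0' H' N' hm hm1 hC hCC hH hHH hN hNN
  rintro ⟨Λ, E, EA, h1, h2, h3, h4, h5, h6, h7⟩
  exact ⟨Λ, E, EA, h1, h2, h3, h4.trans (log_mono3 hm hm1 hC hCC hH hHH),
    h5.trans (mul_le_mul_of_nonneg_right hNN (Real.sqrt_nonneg _)), h6.trans hNN, h7⟩

theorem monoP_PBC : MonoP PBC := by
  intro ι _ _ K M R A b C L e h j q t τ m C0 H N C0' H' N' hm hm1 hC hCC hH hHH hN hNN
  rintro ⟨Λ, E, EA, h1, h2, h3, h4, h5, h6, h7⟩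
  exact ⟨Λ, E, EA, h1, h2, h3, h4.trans (log_mono3 hm hm1 hC hCC hH hHH),
    h5.trans (mul_le_mul_of_nonneg_right hNN (Real.sqrt_nonneg _)), h6.trans hNN, h7⟩

theorem monoP_PZB : MonoP PZB := by
  intro ι _ _ K M R A b C L e h j q t τ m C0 H N C0' H' N' hm hm1 hC hCC hH hHH hN hNN
  rintro ⟨Z, h1, h2, h3⟩
  refine ⟨Z, h1, h2.trans ?_, h3⟩
  have : 0 ≤ H := by linarith
  have : 0 ≤ N' := by linarith
  gcongr

/-- the energy of the slot is at most one -/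
theorem m_le {t r e0 E L th : ℝ} (ht : 0 < t) (ht1 : t ≤ 1) (hr : 1 ≤ r) (he0 : 0 < e0)
    (hE : 0 < E) (hEL : E ≤ L + 3780000) (hth : 0 < th) :
    0 < (t / r) ^ (e0 / 2) * (E / (L + 3780000)) ^ th ∧
      (t / r) ^ (e0 / 2) * (E / (L + 3780000)) ^ th ≤ 1 := by
  have hr0 : 0 < r := by linarith
  have hL : 0 < L + 3780000 := by linarith
  refine ⟨by positivity, ?_⟩
  have h1 : (t / r) ^ (e0 / 2) ≤ 1 := by
    refine Real.rpow_le_one (by positivity) ?_ (by positivity)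
    rw [div_le_one hr0]
    linarith
  have h2 : (E / (L + 3780000)) ^ th ≤ 1 := by
    refine Real.rpow_le_one (by positivity) ?_ hth.le
    rw [div_le_one hL]
    exact hEL
  exact mul_le_one₀ h1 (by positivity) h2

/-- the numbers `H` and `N` grow with `C0`, the exponents and the power of the logarithms -/
theorem H_le {C0 C0' κ ρ : ℝ} {a a' : ℕ} (hC : 1 ≤ C0) (hCC : C0 ≤ C0') (hκ : 1 ≤ κ)
    (hρ : 1 ≤ ρ) (ha : a ≤ a') : 1 ≤ (C0 * κ * ρ) ^ a ∧ (C0 * κ * ρ) ^ a ≤ (C0' * κ * ρ) ^ a' := by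
  have h1 : 1 ≤ C0 * κ * ρ := by
    have : 1 ≤ C0 * κ := one_le_mul_of_one_le_of_one_le hC hκ
    exact one_le_mul_of_one_le_of_one_le this hρ
  refine ⟨one_le_pow₀ h1, ?_⟩
  have h2 : C0 * κ * ρ ≤ C0' * κ * ρ := by gcongr
  calc (C0 * κ * ρ) ^ a ≤ (C0' * κ * ρ) ^ a := pow_le_pow_left₀ (by linarith) h2 a
    _ ≤ _ := pow_le_pow_right₀ (by linarith) ha

theorem N_le {C0 C0' κ ρ t b b' c s : ℝ} {p p' K : ℕ} (hC : 1 ≤ C0) (hCC : C0 ≤ C0')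
    (hκ : 1 ≤ κ) (hρ : 1 ≤ ρ) (ht : 0 < t) (ht1 : t ≤ 1) (hs : 0 < s) (hc : 0 ≤ c) (hb : b ≤ b')
    (hp : p ≤ p') :
    0 ≤ C0 * ((1 + Real.log κ + Real.log ρ) ^ p * (t ^ (-(b * c)) * s * 8 ^ K)) ∧
    C0 * ((1 + Real.log κ + Real.log ρ) ^ p * (t ^ (-(b * c)) * s * 8 ^ K)) ≤
      C0' * ((1 + Real.log κ + Real.log ρ) ^ p' * (t ^ (-(b' * c)) * s * 8 ^ K)) := by
  have l1 := Real.log_nonneg hκ
  have l2 := Real.log_nonneg hρ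
  have h0 : 0 ≤ C0 := by linarith
  have h1 : 1 ≤ 1 + Real.log κ + Real.log ρ := by linarith
  refine ⟨by positivity, ?_⟩
  have h2 : (1 + Real.log κ + Real.log ρ) ^ p ≤ (1 + Real.log κ + Real.log ρ) ^ p' :=
    pow_le_pow_right₀ h1 hp
  have h3 : t ^ (-(b * c)) ≤ t ^ (-(b' * c)) :=
    Real.rpow_le_rpow_of_exponent_ge ht ht1 (by nlinarith)
  have h4 : 0 ≤ (1 + Real.log κ + Real.log ρ) ^ p' := by positivity
  have h5 : 0 ≤ C0' := by linarith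
  gcongr

/-- **Two statements together.** -/
theorem NumQ.and {D : Bun} {Φ Ψ : StP} (H1 : NumQ D Φ) (H2 : NumQ D Ψ) (m1 : MonoP Φ)
    (m2 : MonoP Ψ) :
    NumQ D fun ι _ _ K M R A b C L e h j q t τ m C0 H N =>
      Φ ι K M R A b C L e h j q t τ m C0 H N ∧ Ψ ι K M R A b C L e h j q t τ m C0 H N := by
  intro a ha ha1
  obtain ⟨es, hes, hes1, H1⟩ := H1 a ha ha1
  obtain ⟨es', hes', hes1', H2⟩ := H2 a ha ha1
  refine ⟨min es es', lt_min hes hes', (min_le_left _ _).trans hes1, fun e0 he0 he0' => ?_⟩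
  obtain ⟨k8s, hk8s, H1⟩ := H1 e0 he0 (he0'.trans (min_le_left _ _))
  obtain ⟨k8s', hk8s', H2⟩ := H2 e0 he0 (he0'.trans (min_le_right _ _))
  refine ⟨min k8s k8s', lt_min hk8s hk8s', fun k8 hk8 hk8' => ?_⟩
  obtain ⟨k3s, hk3s, H1⟩ := H1 k8 hk8 (hk8'.trans (min_le_left _ _))
  obtain ⟨k3s', hk3s', H2⟩ := H2 k8 hk8 (hk8'.trans (min_le_right _ _))
  refine ⟨min k3s k3s', lt_min hk3s hk3s', fun k3 hk3 hk3' => ?_⟩
  obtain ⟨ths, hths, H1⟩ := H1 k3 hk3 (hk3'.trans (min_le_left _ _))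
  obtain ⟨ths', hths', H2⟩ := H2 k3 hk3 (hk3'.trans (min_le_right _ _))
  refine ⟨min ths ths', lt_min hths hths', fun th hth hth' => ?_⟩
  obtain ⟨p, b, c1, d1, hb, hc1, hd1, H1⟩ := H1 th hth (hth'.trans (min_le_left _ _))
  obtain ⟨p', b', c1', d1', hb', hc1', hd1', H2⟩ := H2 th hth (hth'.trans (min_le_right _ _))
  refine ⟨max p p', max b b', min c1 c1', min d1 d1', hb.trans (le_max_left _ _),
    lt_min hc1 hc1', lt_min hd1 hd1', fun c hc hcc d hd hdd Kt e cP L hK he hcP hL CD hCD => ?_⟩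
  obtain ⟨a1, C0, hC0, H1⟩ := H1 c hc (hcc.trans (min_le_left _ _)) d hd
    (hdd.trans (min_le_left _ _)) Kt e cP L hK he hcP hL CD hCD
  obtain ⟨a2, C0', hC0', H2⟩ := H2 c hc (hcc.trans (min_le_right _ _)) d hd
    (hdd.trans (min_le_right _ _)) Kt e cP L hK he hcP hL CD hCD
  refine ⟨max a1 a2, max C0 C0', hC0.trans (le_max_left _ _), ?_⟩
  intro t ht ht1 n F1 F2 F3 h1 h3 h2 o ho K hKn x ι _ _ s r U g u v hs hr hcls A b1 C1 hD R κ E hκ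
    hE hEL hsl h hh j hj q hq t' ht' Lb eb heb hlb
  have hρ : 1 ≤ r / t := by
    rw [le_div_iff₀ ht]
    linarith
  have hm := m_le ht ht1 hr he0 hE hEL hth
  have hcd : 0 ≤ c + d := by linarith
  constructor
  · have q1 := H_le (κ := κ) (ρ := r / t) hC0 (le_max_left C0 C0') hκ hρ (le_max_left a1 a2)
    have q2 := N_le (κ := κ) (ρ := r / t) (K := K) hC0 (le_max_left C0 C0') hκ hρ ht ht1 hs hcd
      (le_max_left b b') (le_max_left p p')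
    exact m1 ι _ _ _ _ _ _ _ _ _ _ _ _ _ _ _ _ _ _ _ _ hm.1 hm.2 hC0 (le_max_left _ _) q1.1 q1.2
      q2.1 q2.2 (H1 t ht ht1 n F1 F2 F3 h1 h3 h2 o ho K hKn x ι s r U g u v hs hr hcls A b1 C1 hD R
        κ E hκ hE hEL hsl h hh j hj q hq t' ht' Lb eb heb hlb)
  · have q1 := H_le (κ := κ) (ρ := r / t) hC0' (le_max_right C0 C0') hκ hρ (le_max_right a1 a2)
    have q2 := N_le (κ := κ) (ρ := r / t) (K := K) hC0' (le_max_right C0 C0') hκ hρ ht ht1 hs hcd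
      (le_max_right b b') (le_max_right p p')
    exact m2 ι _ _ _ _ _ _ _ _ _ _ _ _ _ _ _ _ _ _ _ _ hm.1 hm.2 hC0' (le_max_right _ _) q1.1
      q1.2 q2.1 q2.2 (H2 t ht ht1 n F1 F2 F3 h1 h3 h2 o ho K hKn x ι s r U g u v hs hr hcls A b1 C1
        hD R κ E hκ hE hEL hsl h hh j hj q hq t' ht' Lb eb heb hlb)

end

end Vale.Agent.P141.H972
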