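import Vale.Agent.P141.H972.PairAB
import Vale.Agent.P141.H747.StagePM
import Vale.Agent.P141.H677.FDb

/-!
# P141, line (A): the static pair `(A, b)` of the flow part, from the bundle `FDs`

* `RX_AB_PM` : `RX_AB` for the node matrices `H747.GAm`, `H747.GBm` (stacked slot);
* `RX_AB_FD` : the same from `H677.Sk.FDs`; `hAB_FD` : the hypothesis `hAB` of `H581.stageY`.
-/

namespace Vale.Agent.P141.H972

open Finset Matrix
open Vale.Agent.P141.PL (Pt iv hs ix mem_iv ix_ix self_mem_iv cx)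
open Vale.Agent.P141.PL.H588 (hd Pl)
open Vale.Agent.P141.PL.H804 (bx3 bl)
open Vale.Agent.P141.PL.H315 (Tri)
open Vale.Agent.P141.H736 (Path sqb)
open Vale.Agent.P141.H958 (lbs fl PackQ pwr)
open Vale.Agent.P141.H609 (RP NM)
open Vale.Agent.P141.H205 (pwrK packQ_fl)
open Vale.Agent.P141.H210 (Qsh Qr)
open Vale.Agent.P141.H581 (RX)
open Vale.Agent.P141.H747 (sft shA shB sG sL SB GAm GBm)
open Vale.Agent.P141.H795 (ys)
open Vale.Agent.P141.H677 (rv)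
open Vale.Agent.P141.H677.Sk (FamA FamV FDs)
open Vale.Agent.P141.H48 (BSl)

noncomputable section

open scoped Classical

variable {ι : Type} [Fintype ι] [DecidableEq ι] {L : ℕ} {e : ι ⊕ ι → ℤ}

omit [DecidableEq ι] in
theorem pwrK_inr (N : ℕ) (R S : ℤ) (Q : ℕ → ℤ → ℤ → Prop) (b : ℕ → ℤ → ℤ → ι → ℝ) :
    pwrK N R S Q (fun k x y => (Sum.elim (0 : ι → ℝ) (b k x y) : ι ⊕ ι → ℝ)) =
      pwrK N R S Q b := by
  unfold H205.pwrK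
  refine sum_congr rfl fun i _ => sum_congr rfl fun x _ => sum_congr rfl fun y _ => ?_
  rw [sumElim_dotProduct_sumElim, zero_dotProduct, zero_add]

omit [DecidableEq ι] in
/-- **The static pair `(A, b)` in the letters of `H747.StagePM`.** -/
theorem RX_AB_PM (he : Function.Injective e) (hm : ∀ i, e i ∈ lbs L) {K : ℕ} {t : ℤ} {M : Pt}
    (s : Pt) {j : ℤ} (hj : j ∈ Icc (0 : ℤ) 2) (q : Pt) {A : FamA} {b : FamV ι}
    {QA QB : ℕ → Pt → Prop} {cP μA μB : ℝ} (hμA : 0 ≤ μA) (hμB : 0 ≤ μB)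
    (pA : ∀ x0 ∈ iv K t, Path K M.2.2 M.2.1 (Qx QA x0) (A x0))
    (zA : ∀ x0 ∈ iv K t, A x0 0 = 0)
    (kA : ∀ x0 ∈ iv K t, PackQ K M.2.2 M.2.1 (Qx QA x0) cP)
    (mA : ∀ k < K, ∀ q0 ∈ iv (K - k) t, ∀ n ∈ iv (K - k) M.2.2, ∀ m ∈ iv (K - k) M.2.1,
      ∑ x0 ∈ iv k q0, sqb k n m (A x0 (k + 1)) ≤ 8 ^ k * μA)
    (pB : ∀ x0 ∈ iv K t, ∀ l, Path K M.1 M.2.1 (Qx QB x0) (fun k x y => b x0 k x y l))
    (zB : ∀ x0 ∈ iv K t, b x0 0 = 0)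
    (kB : ∀ x0 ∈ iv K t, PackQ K M.1 M.2.1 (Qx QB x0) cP)
    (mB : ∀ k < K, ∀ q0 ∈ iv (K - k) t, ∀ n ∈ iv (K - k) M.1, ∀ m ∈ iv (K - k) M.2.1,
      ∑ x0 ∈ iv k q0, sqv k n m (b x0 (k + 1)) ≤ 8 ^ k * μB)
    {x y : ℝ} (hx : 0 < x) (hy : 0 < y) :
    RX (iv K t) (K + L) (fun x0 => sL L (sG K M (-x0) s j q)) x y (GAm K M A L s)
      (GBm K M b L e s) ≤ 550 * 4 ^ L * (64 * cP * 8 ^ K) * (y ^ 2 * μA + x ^ 2 * μB) := by
  unfold H581.RX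
  have h1 : ∀ x0 ∈ iv K t, RP (K + L) (sL L (sG K M (-x0) s j q)) x y (GAm K M A L s x0)
      (GBm K M b L e s x0) ≤
      550 * 4 ^ L * (y ^ 2 * pwr K (rv (M - q)).1 (rv (M - q)).2.1
          (Qsh s.2.2 s.2.1 (Qr K M.2.2 M.2.1 (Qx QA x0))) (shA K M s (A x0)) +
        x ^ 2 * pwrK K (rv (M - q)).2.2 (rv (M - q)).2.1
          (Qsh s.1 s.2.1 (Qr K M.1 M.2.1 (Qx QB x0))) (shB K M s (b x0))) := by
    intro x0 hx0
    rw [← pwrK_inr]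
    refine RP_lab_AB he hm (planes (ys (-x0) s) j hj) (R := rv (M - q))
      (fun k _ => Subset.rfl) (path_sft (pA x0 hx0) _ _ _ _) ?_ (fun l => ?_) ?_ hx hy
    · show sft K M.2.2 M.2.1 s.2.2 s.2.1 (A x0 0) = 0
      rw [zA x0 hx0]
      exact sft_zero' ..
    · rcases l with l | l
      · intro k hk n hn m hm hq x hx y hy
        rfl
      · have h := path_sft (pB x0 hx0 l) s.1 s.2.1 (rv (M - q)).2.2 (rv (M - q)).2.1
        intro k hk n hn m hm hq x hx y hy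
        have h2 := h k hk n hn m hm hq x hx y hy
        simp only [← sft_apply] at h2
        exact h2
    · funext x y
      show (Sum.elim (0 : ι → ℝ) (sft K M.1 M.2.1 s.1 s.2.1 (b x0 0) x y) : ι ⊕ ι → ℝ) = 0
      rw [zB x0 hx0, sft_zero']
      funext l
      rcases l with l | l <;> rfl
  refine (sum_le_sum h1).trans ?_
  rw [← mul_sum, sum_add_distrib, ← mul_sum, ← mul_sum]
  have g1 := pwr_grid hμA kA mA s.2.2 s.2.1 (rv (M - q)).1 (rv (M - q)).2.1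
  have g2 := pwrK_grid hμB kB mB s.1 s.2.1 (rv (M - q)).2.2 (rv (M - q)).2.1
  have g3 := mul_le_mul_of_nonneg_left g1 (sq_nonneg y)
  have g4 := mul_le_mul_of_nonneg_left g2 (sq_nonneg x)
  have g5 := mul_le_mul_of_nonneg_left (add_le_add g3 g4)
    (by positivity : (0 : ℝ) ≤ 550 * 4 ^ L)
  exact g5.trans (le_of_eq (by ring))

/-- packing of the affected squares -/
theorem packB {n : ℕ} {e0 cP : ℝ} {F : ℕ → Pt → ℝ} {Q : ℕ → Pt → Prop} (hcP : 0 ≤ cP)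
    (hB : BSl n e0 cP F Q) {K : ℕ} (hK : K ≤ n) (Λ : ℝ) (a : ℤ × ℤ → ℝ) (x y x0 : ℤ) :
    PackQ K (ix K x) (ix K y) (H48.Qth Λ a K Q x0) (cP + 2) :=
  (H769.pthSt Λ n e0 cP F Q hcP hB K hK a x y x0).2.2

/-- **The static pair `(A, b)` of the flow part.** -/
theorem RX_AB_FD (he : Function.Injective e) (hm : ∀ i, e i ∈ lbs L) {q : H401.Num} {n : ℕ}
    {ez : ℝ} {F1 F2 F3 : ℕ → Pt → ℝ} {K : ℕ} {x : Pt} {s r : ℝ} {U : Tri} {g : ℤ → ℤ → ℝ}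
    {u v : ℤ → ℤ → ι → ℝ} {A : FamA} {b C : FamV ι} {Q1 Q2 Q3 : ℕ → Pt → Prop}
    {v' : ℤ → ℤ → ι → ℝ} (h : FDs q n ez F1 F2 F3 K x s r U g u v A b C Q1 Q2 Q3 v')
    (hK : K ≤ n) (hcP : 0 ≤ q.cP) (hμ : 0 ≤ q.CD * (q.Lm * s)) (t : ℤ) (sh : Pt) {j : ℤ}
    (hj : j ∈ Icc (0 : ℤ) 2) (q8 : Pt) {a c : ℝ} (ha : 0 < a) (hc : 0 < c) :
    RX (iv K t) (K + L) (fun x0 => sL L (sG K (cx K x) (-x0) sh j q8)) a c
      (GAm K (cx K x) A L sh) (GBm K (cx K x) b L e sh) ≤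
      550 * 4 ^ L * (64 * (q.cP + 2) * 8 ^ K) * ((a ^ 2 + c ^ 2) * (q.CD * (q.Lm * s))) := by
  refine (RX_AB_PM he hm sh hj q8 (M := cx K x)
    (QA := fun k p => H401.qA q U K Q1 k p.1 p.2.1 p.2.2)
    (QB := fun k p => H401.qB q U K Q3 k p.1 p.2.1 p.2.2) (cP := q.cP + 2) hμ hμ
    ?_ ?_ ?_ ?_ ?_ ?_ ?_ ?_ ha hc).trans (le_of_eq (by ring))
  · intro x0 _ k hk n' _ m' _ hq z hz y hy
    exact h.agA x0 k hk n' m' hq z hz y hy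
  · intro x0 _
    funext z y
    exact h.z0A x0 z y
  · intro x0 _
    exact packQ_fl (packB hcP h.B1 hK q.Lm U.2.2 x.2.1 x.2.2 x0)
  · intro k hk q0 _ n' hn m' hm
    have h1 := h.massA k hk.le (k + 1) (Or.inr ⟨rfl, hk⟩) q0 n' hn m' hm
    refine le_trans (le_of_eq ?_) (h1.trans (le_of_eq (mul_comm _ _)))
    refine sum_congr rfl fun x0 _ => ?_
    unfold H736.sqb
    rw [sum_comm]
  · intro x0 _ l k hk n' _ m' _ hq z hz y hy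
    exact congrFun (h.agb x0 k hk n' m' hq z hz y hy) l
  · intro x0 _
    funext z y
    exact h.z0b x0 z y
  · intro x0 _
    exact packB hcP h.B3 hK q.Lm U.1 x.1 x.2.1 x0
  · intro k hk q0 _ n' hn m' hm
    have h1 := h.massb k hk.le (k + 1) (Or.inr ⟨rfl, hk⟩) q0 n' hn m' hm
    exact h1.trans (le_of_eq (mul_comm _ _))

/-- **The hypotheses `hAB`, `hAB'` of `H581.stageY`.** -/
theorem hAB_FD (he : Function.Injective e) (hm : ∀ i, e i ∈ lbs L) {q : H401.Num} {n : ℕ}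
    {ez : ℝ} {F1 F2 F3 : ℕ → Pt → ℝ} {K : ℕ} {x : Pt} {s r : ℝ} {U : Tri} {g : ℤ → ℤ → ℝ}
    {u v : ℤ → ℤ → ι → ℝ} {A : FamA} {b C : FamV ι} {Q1 Q2 Q3 : ℕ → Pt → Prop}
    {v' : ℤ → ℤ → ι → ℝ} (h : FDs q n ez F1 F2 F3 K x s r U g u v A b C Q1 Q2 Q3 v')
    (hK : K ≤ n) (hcP : 0 ≤ q.cP) (hμ : 0 ≤ q.CD * (q.Lm * s)) (t : ℤ) (sh : Pt) {j : ℤ}
    (hj : j ∈ Icc (0 : ℤ) 2) (q8 : Pt) {a : ℝ} (ha : 0 < a) :
    RX (iv K t) (K + L) (fun x0 => sL L (sG K (cx K x) (-x0) sh j q8)) a a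
      (GAm K (cx K x) A L sh) (GBm K (cx K x) b L e sh) ≤
      (4 ^ L * 8 ^ K * (70400 * (q.cP + 2) * q.CD * (q.Lm * s))) * a ^ 2 :=
  (RX_AB_FD he hm h hK hcP hμ t sh hj q8 ha ha).trans (le_of_eq (by ring))

end

end Vale.Agent.P141.H972
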