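import Vale.Agent.P141.H972.AsmB
import Vale.Agent.P141.H186.Price

/-!
# P141, line (A): the price of the node forms for one slot from its three pair statements

* `BunN D` : the bundle `D` contains the data of the flow part and can be divided by `√z`;
  `bunN_FD`;
* **`priceB_of_num : NumQ D PCA → NumQ D PBC → NumQ D PZB → PriceB D FM1`**;
* `leafM_of_num` : the leaf of the flow part for the bundle `FD`.
-/

namespace Vale.Agent.P141.H972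

open Finset Matrix
open Vale.Agent.P141.PL (Pt iv hs ix mem_iv ix_ix cx cb)
open Vale.Agent.P141.PL.H315 (Tri)
open Vale.Agent.P141.H958 (lbs)
open Vale.Agent.P141.H677 (rt)
open Vale.Agent.P141.H677.Sk (FamA FamV FDs FD FM1 Slt SlotN LeafM)
open Vale.Agent.P141.H48 (US ES)
open Vale.Agent.P141.H305 (ClsM kapM Cls)
open Vale.Agent.P141.H401 (Bun)
open Vale.Agent.P141.H939 (PriceB leafM_of_priceB)

noncomputable section

open scoped Classical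

set_option linter.unusedSectionVars false

/-- the bundle `D` contains the data of the flow part and can be divided by `√z` -/
def BunN (D : Bun) : Prop :=
  ∀ (ι : Type) [Fintype ι] [DecidableEq ι] (p : H401.Num) (n : ℕ) (ez : ℝ)
    (F1 F2 F3 : ℕ → Pt → ℝ) (o : ℤ) (K : ℕ) (x : Pt) (s r : ℝ) (U : Tri) (g : ℤ → ℤ → ℝ)
    (u v : ℤ → ℤ → ι → ℝ) (A : FamA) (b C : FamV ι),
    D ι p n ez F1 F2 F3 o K x s r U g u v A b C →
      FD ι p n ez F1 F2 F3 o K x s r U g u v A b C ∧ ∀ z, 0 < z → ez ≤ z →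
        D ι p n 1 F1 (nF z F2) F3 o K x s r U g u v A b (nC z C)

theorem bunN_FD : BunN FD := by
  intro ι _ _ p n ez F1 F2 F3 o K x s r U g u v A b C h
  refine ⟨h, fun z hz hez => ?_⟩
  obtain ⟨Q1, Q2, Q3, v', h⟩ := h
  exact ⟨Q1, Q2, Q3, v', fds_norm h hz hez⟩

/-- the three statements together -/
def P3 : StP := fun ι _ _ K M R A b C L e h j q t τ m C0 H N =>
  PCA ι K M R A b C L e h j q t τ m C0 H N ∧ PBC ι K M R A b C L e h j q t τ m C0 H N ∧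
    PZB ι K M R A b C L e h j q t τ m C0 H N

theorem numQ_P3 {D : Bun} (H1 : NumQ D PCA) (H2 : NumQ D PBC) (H3 : NumQ D PZB) :
    NumQ D P3 := by
  refine H1.and (H2.and H3 monoP_PBC monoP_PZB) monoP_PCA ?_
  intro ι _ _ K M R A b C L e h j q t τ m C0 H N C0' H' N' hm hm1 hC hCC hH hHH hN hNN hh
  exact ⟨monoP_PBC ι K M R A b C L e h j q t τ m C0 H N C0' H' N' hm hm1 hC hCC hH hHH hN hNN
    hh.1, monoP_PZB ι K M R A b C L e h j q t τ m C0 H N C0' H' N' hm hm1 hC hCC hH hHH hN hNN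
    hh.2⟩

/-- the logarithms of the crude size -/
theorem log_two {X m : ℝ} (hX : 1 ≤ X) (hm : 0 < m) (hm1 : m ≤ 1) :
    0 ≤ Real.log (X / m / m) ∧ 1 + Real.log (X / m / m) ≤ 2 * (1 + Real.log (X / m)) := by
  have hX0 : 0 < X := by linarith
  have h1 : 0 ≤ Real.log X := Real.log_nonneg hX
  have h2 : Real.log m ≤ 0 := Real.log_nonpos hm.le hm1
  rw [Real.log_div (by positivity) hm.ne', Real.log_div hX0.ne' hm.ne']
  constructor <;> linarith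

/-- the last number -/
theorem end_num {Λ0 X m W z : ℝ} (hΛ : 0 ≤ Λ0) (hX : 1 ≤ X) (hm : 0 < m) (hm1 : m ≤ 1)
    (hW : 0 ≤ W) (hz : 0 ≤ z) :
    z * (3 * (162 * (1 + Λ0 * (1 + Real.log (X / m / m)) ^ 3) * (1 + Real.log (X / m / m)) * W)) ≤
      z * (162 * (1 + 8 * Λ0 * (1 + Real.log (X / m)) ^ 3) * (1 + Real.log (X / m)) *
        (6 * W)) := by
  obtain ⟨h0, h1⟩ := log_two hX hm hm1
  refine mul_le_mul_of_nonneg_left ?_ hz
  have h2 : (1 + Real.log (X / m / m)) ^ 3 ≤ 8 * (1 + Real.log (X / m)) ^ 3 := by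
    calc (1 + Real.log (X / m / m)) ^ 3 ≤ (2 * (1 + Real.log (X / m))) ^ 3 :=
        pow_le_pow_left₀ (by linarith) h1 3
      _ = _ := by ring
  have h3 : 1 + Λ0 * (1 + Real.log (X / m / m)) ^ 3 ≤
      1 + 8 * Λ0 * (1 + Real.log (X / m)) ^ 3 := by
    have := mul_le_mul_of_nonneg_left h2 hΛ
    linarith
  have h5 : 0 ≤ 1 + Real.log (X / m / m) := by linarith
  have h6 : 0 ≤ 1 + Λ0 * (1 + Real.log (X / m / m)) ^ 3 := by positivity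
  have h7 : (1 + Λ0 * (1 + Real.log (X / m / m)) ^ 3) * (1 + Real.log (X / m / m)) ≤
      (1 + 8 * Λ0 * (1 + Real.log (X / m)) ^ 3) * (2 * (1 + Real.log (X / m))) :=
    mul_le_mul h3 h1 h5 (h6.trans h3)
  have h8 := mul_le_mul_of_nonneg_right h7 hW
  calc 3 * (162 * (1 + Λ0 * (1 + Real.log (X / m / m)) ^ 3) * (1 + Real.log (X / m / m)) * W) =
      486 * ((1 + Λ0 * (1 + Real.log (X / m / m)) ^ 3) * (1 + Real.log (X / m / m)) * W) := by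
        ring
    _ ≤ 486 * ((1 + 8 * Λ0 * (1 + Real.log (X / m)) ^ 3) *
        (2 * (1 + Real.log (X / m))) * W) := mul_le_mul_of_nonneg_left h8 (by norm_num)
    _ = _ := by ring

/-- the cap of the stacked slot below the crude size -/
theorem cap_le {q : H401.Num} {s r κ m H' c0 : ℝ} (ht : 0 < q.t) (ht1 : q.t ≤ 1) (hs : 0 < s)
    (hr : 1 ≤ r) (hd : 0 ≤ q.d) (hd1 : q.d ≤ 1) (hk : 0 ≤ q.k3) (hκ : 1 ≤ κ) (hm1 : m ≤ 1)
    (hc0 : 2 ≤ c0) (hH : (c0 * κ * (r / q.t)) ^ 2 ≤ H') :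
    √((√m + κ ^ 2) * (16 * √(q.Lm * s))) ≤ H' * (2 * q.th s r) := by
  have hth := H401.Num.th_pos ht hs hr
  have hr0 : 0 < r := by linarith
  have hρ : 1 / q.t ≤ r / q.t := by gcongr
  have hκ2 : 1 ≤ κ ^ 2 := one_le_pow₀ hκ
  have hκ0 : 0 < κ := by linarith
  have hH0 : 0 ≤ H' := le_trans (by positivity) hH
  have hL1 := H401.Num.Lm_ge ht ht1 hd
  have hLt : q.Lm ≤ 1 / q.t := by
    unfold H401.Num.Lm
    rw [one_div, ← Real.rpow_neg_one]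
    exact Real.rpow_le_rpow_of_exponent_ge ht ht1 (by linarith)
  have hsm : √m ≤ 1 := by
    rw [← Real.sqrt_one]
    exact Real.sqrt_le_sqrt hm1
  have hsL : √(q.Lm * s) ≤ 1 / q.t * √s := by
    rw [Real.sqrt_mul (by linarith)]
    have h1 : √q.Lm ≤ q.Lm := by
      rw [Real.sqrt_le_iff]
      exact ⟨by linarith, by nlinarith⟩
    exact mul_le_mul_of_nonneg_right (h1.trans hLt) (Real.sqrt_nonneg _)
  have hs0 : 0 < √s := Real.sqrt_pos.2 hs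
  have hth2 : q.t ^ 2 * √s ≤ q.th s r ^ 2 := by
    rw [H401.Num.th_sq ht hs hr]
    have h1 : q.t ^ 2 ≤ q.t ^ (2 - 2 * q.k3) := by
      rw [← Real.rpow_natCast q.t 2]
      exact Real.rpow_le_rpow_of_exponent_ge ht ht1 (by push_cast; linarith)
    have h2 : 1 ≤ r ^ (2 * q.k3) := Real.one_le_rpow hr (by linarith)
    calc q.t ^ 2 * √s ≤ q.t ^ (2 - 2 * q.k3) * √s := by gcongr
      _ = q.t ^ (2 - 2 * q.k3) * √s * 1 := (mul_one _).symm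
      _ ≤ _ := by gcongr
  refine Real.sqrt_le_iff.2 ⟨by positivity, ?_⟩
  have e1 : (H' * (2 * q.th s r)) ^ 2 = 4 * H' ^ 2 * q.th s r ^ 2 := by ring
  rw [e1]
  have h3 : (c0 * κ * (r / q.t)) ^ 4 ≤ H' ^ 2 := by
    calc (c0 * κ * (r / q.t)) ^ 4 = ((c0 * κ * (r / q.t)) ^ 2) ^ 2 := by ring
      _ ≤ _ := pow_le_pow_left₀ (by positivity) hH 2
  have h4 : 16 * κ ^ 2 * (1 / q.t) ^ 4 ≤ H' ^ 2 := by
    refine le_trans ?_ h3
    have h5 : (16 : ℝ) ≤ c0 ^ 4 := by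
      calc (16 : ℝ) = 2 ^ 4 := by norm_num
        _ ≤ c0 ^ 4 := pow_le_pow_left₀ (by norm_num) hc0 4
    have h6 : κ ^ 2 ≤ κ ^ 4 := pow_le_pow_right₀ hκ (by norm_num)
    calc 16 * κ ^ 2 * (1 / q.t) ^ 4 ≤ c0 ^ 4 * κ ^ 4 * (r / q.t) ^ 4 := by gcongr
      _ = _ := by ring
  calc (√m + κ ^ 2) * (16 * √(q.Lm * s)) ≤ (2 * κ ^ 2) * (16 * (1 / q.t * √s)) := by
        have : √m + κ ^ 2 ≤ 2 * κ ^ 2 := by linarith
        gcongr
    _ = 32 * κ ^ 2 * (1 / q.t) * √s := by ring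
    _ ≤ 64 * κ ^ 2 * (1 / q.t) ^ 4 * (q.t ^ 2 * √s) := by
        have e2 : 64 * κ ^ 2 * (1 / q.t) ^ 4 * (q.t ^ 2 * √s) =
            64 * κ ^ 2 * (1 / q.t) ^ 2 * √s := by
          field_simp
        rw [e2]
        have h7 : 1 ≤ 1 / q.t := by
          rw [le_div_iff₀ ht]
          linarith
        have h8 : 1 / q.t ≤ (1 / q.t) ^ 2 := by nlinarith
        gcongr
        norm_num
    _ ≤ 64 * κ ^ 2 * (1 / q.t) ^ 4 * q.th s r ^ 2 := by gcongr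
    _ = 4 * (16 * κ ^ 2 * (1 / q.t) ^ 4) * q.th s r ^ 2 := by ring
    _ ≤ 4 * H' ^ 2 * q.th s r ^ 2 := by gcongr

/-- the masses below the number -/
theorem mass_le {q : H401.Num} {s b c c0 c1 l : ℝ} {p K : ℕ} (ht : 0 < q.t) (ht1 : q.t ≤ 1)
    (hs : 0 < s) (hc : 0 ≤ c) (hd : 0 ≤ q.d) (hb : 1 ≤ b) (hc1 : 0 ≤ c1) (hcc : c1 ≤ c0)
    (hl : 1 ≤ l) :
    c1 * (q.Lm * s) * 8 ^ K ≤ c0 * (l ^ p * (q.t ^ (-(b * (c + q.d))) * s * 8 ^ K)) := by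
  have h1 : q.Lm ≤ q.t ^ (-(b * (c + q.d))) := by
    unfold H401.Num.Lm
    refine Real.rpow_le_rpow_of_exponent_ge ht ht1 ?_
    nlinarith
  have h2 : 1 ≤ l ^ p := one_le_pow₀ hl
  have h3 : 0 < q.Lm := Real.rpow_pos_of_pos ht _
  have h4 : 0 ≤ c0 := hc1.trans hcc
  calc c1 * (q.Lm * s) * 8 ^ K ≤ c0 * (q.t ^ (-(b * (c + q.d))) * s) * 8 ^ K := by gcongr
    _ = c0 * (1 * (q.t ^ (-(b * (c + q.d))) * s * 8 ^ K)) := by ring
    _ ≤ _ := by gcongr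

/-- the crude size -/
theorem size_le {c0 κ ρ m : ℝ} (a' : ℕ) (hc0 : 2 ≤ c0) (hκ : 1 ≤ κ) (hρ : 1 ≤ ρ) (hm1 : m ≤ 1) :
    (c0 * κ * ρ) ^ 2 ≤ (c0 * κ * ρ) ^ (a' + 2) ∧ κ ^ 2 ≤ (c0 * κ * ρ) ^ (a' + 2) ∧
    1 ≤ √(√m + κ ^ 2) * (c0 * κ * ρ) ^ (a' + 2) ∧
    √(√m + κ ^ 2) * (c0 * κ * ρ) ^ (a' + 2) ≤ (c0 * κ * ρ) ^ (a' + 3) := by
  have hκ0 : 0 < κ := by linarith
  have hκ2 : 1 ≤ κ ^ 2 := one_le_pow₀ hκ
  have h1 : 2 * κ * 1 ≤ c0 * κ * ρ := by gcongr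
  have hb : 1 ≤ c0 * κ * ρ := by linarith
  have hsq : (c0 * κ * ρ) ^ 2 ≤ (c0 * κ * ρ) ^ (a' + 2) := pow_le_pow_right₀ hb (by omega)
  have hsm : √m ≤ 1 := by
    rw [← Real.sqrt_one]
    exact Real.sqrt_le_sqrt hm1
  have hsm0 : 0 ≤ √m := Real.sqrt_nonneg m
  have hkk : 1 ≤ √(√m + κ ^ 2) := by
    rw [← Real.sqrt_one]
    exact Real.sqrt_le_sqrt (by linarith)
  have hkk2 : √(√m + κ ^ 2) ≤ c0 * κ * ρ := by
    refine le_trans (Real.sqrt_le_iff.2 ⟨by positivity, ?_⟩) h1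
    nlinarith
  refine ⟨hsq, le_trans (pow_le_pow_left₀ hκ0.le (by linarith) 2) hsq,
    one_le_mul_of_one_le_of_one_le hkk (one_le_pow₀ hb), ?_⟩
  calc √(√m + κ ^ 2) * (c0 * κ * ρ) ^ (a' + 2) ≤ (c0 * κ * ρ) * (c0 * κ * ρ) ^ (a' + 2) := by
        gcongr
    _ = (c0 * κ * ρ) ^ (a' + 3) := by ring

/-- **The price of one slot on one plane of one grid**, `ez = 1`. -/
theorem slot_price (p a' : ℕ) {C0 cP CD L th : ℝ} (hC0 : 1 ≤ C0) (hcP : 0 ≤ cP) (hCD : 1 ≤ CD)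
    (hL : 1 ≤ L) (hth : 0 < th) :
    ∃ C : ℝ, 0 ≤ C ∧ ∀ (q : H401.Num) (b : ℝ), q.cP = cP → q.CD = CD → q.L = L → 0 < q.e0 →
      0 ≤ q.k3 → 0 ≤ q.c → 0 < q.d → q.d ≤ 1 → 0 < q.t → q.t ≤ 1 →
      ∀ (n : ℕ) (F1 F2 F3 : ℕ → Pt → ℝ), ∀ K ≤ n, ∀ (x : Pt) (ι : Type) [Fintype ι]
        [DecidableEq ι] (s r P : ℝ) (U : Tri) (g : ℤ → ℤ → ℝ) (u v : ℤ → ℤ → ι → ℝ), 0 < s →
        1 ≤ r → Cls K x s r P U g u v →
      ∀ (A : FamA) (b1 C1 : FamV ι) (Q1 Q2 Q3 : ℕ → Pt → Prop) (v' : ℤ → ℤ → ι → ℝ),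
        FDs q n 1 F1 F2 F3 K x s r U g u v A b1 C1 Q1 Q2 Q3 v' →
      ∀ (R : Slt ι) (κ E : ℝ), 1 ≤ κ → 0 < E → E ≤ L + 3780000 →
        (∀ x0 z x1, ∀ w : ι → ℝ,
          (R x0 0 z x1 *ᵥ w) ⬝ᵥ (R x0 0 z x1 *ᵥ w) ≤ κ ^ 2 * (w ⬝ᵥ w)) →
      ∀ (h : Pt), ∀ j ∈ Icc (0 : ℤ) 2, ∀ (q8 : Pt) (Lb : ℕ) (eb : ι ⊕ ι → ℤ),
        Function.Injective eb → (∀ i, eb i ∈ lbs Lb) →
        (∀ t' ∈ rt (cx K x), P3 ι K (cx K x) R A b1 C1 Lb eb h j q8 t' (2 * q.th s r)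
          ((q.t / r) ^ (q.e0 / 2) * (E / (L + 3780000)) ^ th) C0 ((C0 * κ * (r / q.t)) ^ a')
          (C0 * ((1 + Real.log κ + Real.log (r / q.t)) ^ p *
            (q.t ^ (-(b * (q.c + q.d))) * s * 8 ^ K)))) →
      ∀ z : ℝ, √z * FM1 K (cx K x) R A b1 C1 h j q8 ≤
        C * ((1 + Real.log κ + Real.log (r / q.t)) ^ (4 + p) * E ^ (th / 16) *
          (q.t * (r / q.t) ^ (q.k3 - q.e0 / 32) * q.t ^ (-(max b 1 * (q.c + q.d))) *
            s ^ (5 / 4 : ℝ) * √z * 8 ^ K)) := by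
  have hm0 : 0 ≤ 70400 * (cP + 2) * (CD + 8) := by positivity
  have hc00 : C0 ≤ C0 + 1 + 70400 * (cP + 2) * (CD + 8) := by linarith
  have hc02 : 2 ≤ C0 + 1 + 70400 * (cP + 2) * (CD + 8) := by linarith
  have hc0m : 70400 * (cP + 2) * (CD + 8) ≤ C0 + 1 + 70400 * (cP + 2) * (CD + 8) := by linarith
  generalize hc0 : C0 + 1 + 70400 * (cP + 2) * (CD + 8) = c0 at hc00 hc02 hc0m
  obtain ⟨C, hC, HC⟩ := H186.FinM.fin_pow p (c0 := c0) (Λ0 := 8 * C0) (N0 := 6 * c0) (τ0 := 2)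
    (EM := L + 3780000) (th := th) (a := a' + 3) (by linarith) (by linarith) (by linarith)
    (by norm_num) (by linarith) hth.le
  refine ⟨C, hC, ?_⟩
  intro q b hqc hqD hqL he0 hk3 hc hd hd1 ht ht1 n F1 F2 F3 K hKn x ι _ _ s r P U g u v hs hr hcls
    A b1 C1 Q1 Q2 Q3 v' hfd R κ E hκ hE hEL hR h j hj q8 Lb eb heb hlb hP z
  have hr0 : 0 < r := by linarith
  have hρ : 1 ≤ r / q.t := by
    rw [le_div_iff₀ ht]
    linarith
  have hcd : 0 ≤ q.c + q.d := by linarith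
  have hm := m_le ht ht1 hr he0 hE hEL hth
  have hl : 1 ≤ 1 + Real.log κ + Real.log (r / q.t) := by
    have e1 := Real.log_nonneg hκ
    have e2 := Real.log_nonneg hρ
    linarith
  have hthp := H401.Num.th_pos (p := q) ht hs hr
  have hLm := H401.Num.Lm_ge (p := q) ht ht1 hd.le
  have hHH := H_le (κ := κ) (ρ := r / q.t) (a := a') (a' := a' + 2) hC0 hc00 hκ hρ (by omega)
  have hNN := N_le (κ := κ) (ρ := r / q.t) (K := K) (t := q.t) (b := b) (b' := max b 1)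
    (c := q.c + q.d) (s := s) (p := p) (p' := p) hC0 hc00 hκ hρ ht ht1 hs hcd (le_max_left _ _)
    le_rfl
  have hn1 := mass_le (q := q) (s := s) (b := max b 1) (c := q.c) (c0 := c0)
    (c1 := 70400 * (cP + 2) * (CD + 8)) (l := 1 + Real.log κ + Real.log (r / q.t)) (p := p)
    (K := K) ht ht1 hs hc hd.le (le_max_right _ _) hm0 hc0m hl
  have hn1' : 70400 * (q.cP + 2) * (q.CD + 8) * (q.Lm * s) * 8 ^ K ≤
      c0 * ((1 + Real.log κ + Real.log (r / q.t)) ^ p *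
        (q.t ^ (-(max b 1 * (q.c + q.d))) * s * 8 ^ K)) := by
    rw [hqc, hqD]
    exact hn1
  generalize hmm : (q.t / r) ^ (q.e0 / 2) * (E / (L + 3780000)) ^ th = m at hm hP
  obtain ⟨hsq, hn2, hX1, hX2⟩ := size_le (c0 := c0) (κ := κ) (ρ := r / q.t) (m := m) a' hc02 hκ
    hρ hm.2
  have hn3 := cap_le (q := q) (s := s) (r := r) (κ := κ) (m := m)
    (H' := (c0 * κ * (r / q.t)) ^ (a' + 2)) (c0 := c0) ht ht1 hs hr hd.le hd1 hk3 hκ hm.2 hc02 hsq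
  have hF := one_slot hfd hcls hLm hs (by rw [hqD]; exact hCD) (by rw [hqc]; exact hcP) hKn hthp
    heb hlb hκ hR hm.1 hm.2 hC0 hHH.1 hNN.1 hNN.2 hHH.2 hn1' hn2 hn3 hj
    (fun t' ht' => (hP t' ht').1) (fun t' ht' => (hP t' ht').2.1)
    (fun t' ht' => (hP t' ht').2.2)
  have hN'0 := hNN.1.trans hNN.2
  generalize hNe : c0 * ((1 + Real.log κ + Real.log (r / q.t)) ^ p *
    (q.t ^ (-(max b 1 * (q.c + q.d))) * s * 8 ^ K)) = N' at hF hN'0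
  generalize hH' : (c0 * κ * (r / q.t)) ^ (a' + 2) = H' at hF hX1 hX2
  generalize hkk : √(√m + κ ^ 2) = k at hF hX1 hX2
  have e1 : k * (H' / m) / m = k * H' / m / m := by ring
  rw [e1] at hF
  have hm00 := hm.1
  have hτ0 : 0 ≤ 2 * q.th s r := by linarith
  have hW : 0 ≤ N' * (2 * q.th s r) * m ^ (1 / 8 : ℝ) :=
    mul_nonneg (mul_nonneg hN'0 hτ0) (Real.rpow_nonneg hm00.le _)
  have hF2 := (mul_le_mul_of_nonneg_left hF (Real.sqrt_nonneg z)).trans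
    (end_num (zero_le_one.trans hC0) hX1 hm.1 hm.2 hW (Real.sqrt_nonneg z))
  refine HC q.t r s q.k3 q.e0 (max b 1) q.c q.d κ E m (k * H')
    (8 * C0 * (1 + Real.log (k * H' / m)) ^ 3) (6 * N') (2 * q.th s r) z
    (√z * FM1 K (cx K x) R A b1 C1 h j q8) K ht hr ht1 hs hκ hE hmm.symm hm.2 hX1 hX2
    (mul_nonneg (by norm_num) hN'0) hτ0 ?_ (le_of_eq rfl) le_rfl (hF2.trans (le_of_eq ?_))
  · rw [← hNe]
    exact le_of_eq (by ring)
  · ring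

/-- **The price of the node forms for one slot from its three pair statements.** -/
theorem priceB_of_num {D : Bun} (hD : BunN D) (H1 : NumQ D PCA) (H2 : NumQ D PBC)
    (H3 : NumQ D PZB) : PriceB D fun _ι _ _ K M R A b C h j e => FM1 K M R A b C h j e := by
  have HA := numQ_P3 H1 H2 H3
  clear H1 H2 H3
  intro a ha ha1
  obtain ⟨es, hes, hes1, HA'⟩ := HA a ha ha1
  clear HA
  refine ⟨es, hes, hes1, fun e0 he0 he0' => ?_⟩
  obtain ⟨k8s, hk8s, HA⟩ := HA' e0 he0 he0'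
  clear HA'
  refine ⟨k8s, hk8s, fun k8 hk8 hk8' => ?_⟩
  obtain ⟨k3s, hk3s, HA'⟩ := HA k8 hk8 hk8'
  clear HA
  refine ⟨min k3s (e0 / 32), lt_min hk3s (by linarith), fun k3 hk3 hk3' => ?_⟩
  obtain ⟨th, hth, HA⟩ := HA' k3 hk3 (hk3'.trans (min_le_left _ _))
  clear HA'
  obtain ⟨p, b, c1, d1, hb, hc1, hd1, HA'⟩ := HA th hth le_rfl
  clear HA
  have hk32 : k3 ≤ e0 / 32 := hk3'.trans (min_le_right _ _)
  have hw : 2 * (k3 - e0 / 32) < e0 * (th / 16) := by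
    have : 0 < e0 * (th / 16) := by positivity
    linarith
  refine ⟨4 + p, th / 16, k3 - e0 / 32, max b 1, c1, min d1 1, by linarith, hw,
    hb.trans (le_max_left _ _), hc1, lt_min hd1 one_pos,
    fun c hc hcc d hd hdd Kt e cP L hK he hcP hL CD hCD => ?_⟩
  obtain ⟨a', C0, hC0, HA⟩ := HA' c hc hcc d hd (hdd.trans (min_le_left _ _)) Kt e cP L hK he hcP
    hL CD hCD
  clear HA'
  obtain ⟨C, hC, HC⟩ := slot_price p a' hC0 hcP hCD hL hth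
  refine ⟨C, hC, ?_⟩
  intro t ht ht1 n ez F1 F2 F3 h1 h3 h2 o ho K hKn x ι _ _ s r U g u v hs hr hcls A b1 C1 hD1 R κ
    E hκ hE hEL hsl h hh j hj q hq
  have key : ∀ z, ez < z → FM1 K (cx K x) R A b1 C1 h j q ≤
      C * ((1 + Real.log κ + Real.log (r / t)) ^ (4 + p) * E ^ (th / 16) *
        (t * (r / t) ^ (k3 - e0 / 32) * t ^ (-(max b 1 * (c + d))) * s ^ (5 / 4 : ℝ) * 8 ^ K)) *
          √z := by
    intro z hz
    have hz0 : 0 < z := lt_of_le_of_lt h2.1 hz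
    obtain ⟨Lb, hLb⟩ : ∃ Lb : ℕ, Fintype.card (ι ⊕ ι) ≤ 2 ^ Lb :=
      ⟨Fintype.card (ι ⊕ ι), Nat.lt_two_pow_self.le⟩
    obtain ⟨eb, heb, hlb⟩ := H205.exists_emb hLb
    have hD2 := (hD ι _ n ez F1 F2 F3 o K x s r U g u v A b1 C1 hD1).2 z hz0 hz.le
    obtain ⟨Q1, Q2, Q3, v', hfd⟩ := (hD ι _ n 1 F1 (nF z F2) F3 o K x s r U g u v A b1
      (nC z C1) hD2).1
    have hP := fun t' (ht' : t' ∈ rt (cx K x)) => HA t ht ht1 n F1 (nF z F2) F3 h1 h3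
      (es_norm h2 hz0 hz.le) o ho K hKn x ι s r U g u v hs hr hcls A b1 (nC z C1) hD2 R κ E hκ hE
      hEL hsl h hh j hj q hq t' ht' Lb eb heb hlb
    clear HA
    rw [FM1_norm hz0]
    refine (HC ⟨a, e0, k8, k3, c, d, Kt, e, cP, L, CD, t⟩ b rfl rfl rfl he0 hk3.le hc hd
      (hdd.trans (min_le_right _ _)) ht ht1 n F1 (nF z F2) F3 K hKn x ι s r _ U g u v hs hr
      hcls.toCls A b1 (nC z C1) Q1 Q2 Q3 v' hfd R κ E hκ hE hEL
      (fun x0 z' x1 w => hsl.cap x0 0 (Nat.zero_le _) z' x1 w) h j hj q Lb eb heb hlb hP z).trans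
      (le_of_eq ?_)
    ring
  refine (H186.XSum.of_gt key).trans (le_of_eq ?_)
  ring

/-- **The leaf of the flow part for the bundle `FD`.** -/
theorem leafM_of_num (H1 : NumQ FD PCA) (H2 : NumQ FD PBC) (H3 : NumQ FD PZB) : LeafM :=
  leafM_of_priceB (priceB_of_num bunN_FD H1 H2 H3)

end

end Vale.Agent.P141.H972
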