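import Vale.Agent.P141.H972.PairFD
import Vale.Agent.P141.H972.CloseT
import Vale.Agent.P141.H747.StageM
import Vale.Agent.P141.H829.PairFD
import Vale.Agent.P141.H215.CapX
import Vale.Agent.P141.H186.FinN
import Vale.Agent.P141.H939.PriceB

/-!
# P141, line (A): the node forms of the flow part, one slot: homogeneity and the stage

* `fds_norm` : the bundle with the third function divided by `√z`; `FM1_norm`;
* `stage_tau` : `H581.stageY` as `StageTau`.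
-/

namespace Vale.Agent.P141.H972

open Finset Matrix
open Vale.Agent.P075 (gramC gramR)
open Vale.Agent.P141.PL (Pt iv hs ix mem_iv ix_ix self_mem_iv cx cb)
open Vale.Agent.P141.PL.H804 (bx3 bl)
open Vale.Agent.P141.PL.H315 (Tri)
open Vale.Agent.P141.H958 (lbs)
open Vale.Agent.P141.H609 (RP NM)
open Vale.Agent.P141.H581 (RX UX RX_nonneg stageY)
open Vale.Agent.P141.H747 (sft shA shB shC sG sL MA MB MC MSb MSc RgS)
open Vale.Agent.P141.H795 (ys E8)
open Vale.Agent.P141.H677 (rv rt kF nf3)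
open Vale.Agent.P141.H677.Sk (FamA FamV FDs FD FM1 Slt SlotN av LeafM)
open Vale.Agent.P141.H48 (BSl US ES sst)
open Vale.Agent.P141.H305 (ClsM kapM Cls)
open Vale.Agent.P141.H43 (nsq)
open Vale.Agent.P141.H939 (PriceB leafM_of_priceB)

noncomputable section

open scoped Classical

set_option linter.unusedSectionVars false

variable {ι : Type} [Fintype ι] [DecidableEq ι]

/-! ### The third function divided by `√z` -/

/-- the third function divided by `√z` -/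
def nC (z : ℝ) (C : FamV ι) : FamV ι := fun x0 k y x => (√z)⁻¹ • C x0 k y x

/-- the slot divided by `√z` -/
def nF (z : ℝ) (F : ℕ → Pt → ℝ) : ℕ → Pt → ℝ := fun k y => (√z)⁻¹ * F k y

theorem sq_nF {z : ℝ} (hz : 0 < z) (F : ℕ → Pt → ℝ) (k : ℕ) (y : Pt) :
    nF z F k y ^ 2 = z⁻¹ * F k y ^ 2 := by
  unfold nF
  rw [mul_pow, inv_pow, Real.sq_sqrt hz.le]

theorem bsl_norm {n : ℕ} {e z cP : ℝ} {F : ℕ → Pt → ℝ} {Q : ℕ → Pt → Prop}
    (h : BSl n e cP F Q) (hz : 0 < z) (hez : e ≤ z) : BSl n 1 cP (nF z F) Q := by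
  have key : ∀ (T : Finset ℤ) (f : ℤ → Pt) (k j : ℕ), ∑ i ∈ T, F (k + 1) (f i) ^ 2 ≤ e * 2 ^ j →
      ∑ i ∈ T, nF z F (k + 1) (f i) ^ 2 ≤ 1 * 2 ^ j := by
    intro T f k j hh
    simp only [sq_nF hz, ← mul_sum]
    rw [inv_mul_le_iff₀ hz]
    refine hh.trans ?_
    rw [one_mul]
    exact mul_le_mul_of_nonneg_right hez (by positivity)
  refine ⟨fun k h1 hk m hq y hy => ?_, h.pack, fun k hk m x y => ?_, fun k hk m x y => ?_,
    fun k hk m x y => ?_⟩
  · unfold nF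
    rw [h.agree k h1 hk m hq y hy]
  · exact key (iv k m) (fun i => (i, x, y)) k k (h.l0 k hk m x y)
  · exact key (iv k m) (fun i => (x, i, y)) k k (h.l1 k hk m x y)
  · exact key (iv k m) (fun i => (x, y, i)) k k (h.l2 k hk m x y)

theorem es_norm {n : ℕ} {e z cP : ℝ} {F : ℕ → Pt → ℝ} (h : ES n e cP F) (hz : 0 < z)
    (hez : e ≤ z) : ES n 1 cP (nF z F) := by
  obtain ⟨_, Q, hQ⟩ := h
  exact ⟨zero_le_one, Q, bsl_norm hQ hz hez⟩

theorem fds_norm {q : H401.Num} {n : ℕ} {ez z : ℝ} {F1 F2 F3 : ℕ → Pt → ℝ} {K : ℕ} {x : Pt}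
    {s r : ℝ} {U : Tri} {g : ℤ → ℤ → ℝ} {u v : ℤ → ℤ → ι → ℝ} {A : FamA} {b C : FamV ι}
    {Q1 Q2 Q3 : ℕ → Pt → Prop} {v' : ℤ → ℤ → ι → ℝ}
    (h : FDs q n ez F1 F2 F3 K x s r U g u v A b C Q1 Q2 Q3 v') (hz : 0 < z) (hez : ez ≤ z) :
    FDs q n 1 F1 (nF z F2) F3 K x s r U g u v A b (nC z C) Q1 Q2 Q3 v' where
  B1 := h.B1
  B2 := bsl_norm h.B2 hz hez
  B3 := h.B3
  z0A := h.z0A
  z0b := h.z0b
  agA := h.agA
  agb := h.agb
  capA := h.capA
  capA1 := h.capA1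
  capb := h.capb
  capb1 := h.capb1
  ownA := h.ownA
  ownb := h.ownb
  massA := h.massA
  massb := h.massb
  rowb := h.rowb
  rowA := h.rowA
  C_eq := by
    intro x0 k z' x'
    unfold nC
    rw [h.C_eq, smul_smul]
    congr 1
    unfold H677.kF nF
    split_ifs
    · rw [mul_zero]
    · rfl
  v_or := h.v_or
  fib := h.fib

/-- the node forms are homogeneous in the third function -/
theorem FM1_norm {z : ℝ} (hz : 0 < z) (K : ℕ) (M : Pt) (R : Slt ι) (A : FamA) (b C : FamV ι)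
    (h : Pt) (j : ℤ) (q : Pt) :
    FM1 K M R A b C h j q = √z * FM1 K M R A b (nC z C) h j q := by
  have hz' : 0 < √z := Real.sqrt_pos.2 hz
  unfold H677.Sk.FM1 H677.Sk.FF
  simp only [mul_sum]
  refine sum_congr rfl fun t _ => sum_congr rfl fun x0 _ => sum_congr rfl fun k _ =>
    sum_congr rfl fun m _ => ?_
  have e1 : shC K M h (fun k z' x => av R h.2.2 x0 k z' x *ᵥ C x0 k z' x) k =
      fun y x => √z • shC K M h (fun k z' x => av R h.2.2 x0 k z' x *ᵥ nC z C x0 k z' x) k y x := by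
    funext y x
    unfold H747.shC H747.sft nC
    split_ifs
    · simp only [mulVec_smul, smul_smul, mul_inv_cancel₀ hz'.ne', one_smul]
    · rw [smul_zero]
  rw [e1]
  have e2 : ∀ (Cc : ℤ → ℤ → ι → ℝ), nf3 (shA K M h (A x0) k) (shB K M h (b x0) k)
      (fun y x => √z • Cc y x) k m =
      √z * nf3 (shA K M h (A x0) k) (shB K M h (b x0) k) Cc k m := by
    intro Cc
    unfold H677.nf3
    rw [mul_left_comm]
    congr 1
    simp only [mul_sum]
    refine sum_congr rfl fun _ _ => sum_congr rfl fun _ _ => sum_congr rfl fun _ _ => ?_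
    rw [dotProduct_smul, smul_eq_mul]
    ring
  rw [e2, abs_mul, abs_of_pos hz']

/-! ### The stage -/

/-- `H581.stageY` with all its pair sums as functions of the levels -/
theorem stage_tau {X : Type*} {I : Finset X} {N : ℕ} {s : X → ℕ → Finset Pt} {τ cC : ℝ}
    {FA FB FC : X → NM} (hτ : 0 < τ) (hC : 0 < cC)
    (capA : ∀ i ∈ I, ∀ k ∈ Icc 1 N, ∀ m ∈ s i k,
      (1 - gramC ((τ ^ 2)⁻¹ * (4 ^ k)⁻¹) (FA i k m)).PosSemidef)
    (capB : ∀ i ∈ I, ∀ k ∈ Icc 1 N, ∀ m ∈ s i k,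
      (1 - gramC ((τ ^ 2)⁻¹ * (4 ^ k)⁻¹) (FB i k m)).PosSemidef)
    (capC : ∀ i ∈ I, ∀ k ∈ Icc 1 N, ∀ m ∈ s i k,
      (1 - gramC ((cC ^ 2)⁻¹ * (4 ^ k)⁻¹) (FC i k m)).PosSemidef) :
    StageTau (fun x y => RX I N s x y FA FB) (fun x y => RX I N s x y FB FC)
      (fun x y => RX I N s x y FC FA) τ cC (UX I N s τ τ cC FA FB FC 0 0 0) := by
  intro P₀ P₁ QA QB Z κ' g σ e₂ D L₀ L₁ hP₀ _ _ hQB hZ hκ hg hσ he₂ hle hDσ hσe hL₀ hL₁ hAB hT hQA
    hQB' hCA hZB hZA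
  exact stageY hτ hC capA capB capC hP₀ hQB hZ hκ hDσ hσe hL₀ hL₁ hAB
      (fun h h0 h1 => hAB h h0 (h1.trans hle)) hT hQA hQB' hCA hZB hZA

end

end Vale.Agent.P141.H972
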