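import Vale.Agent.P141.H972.AsmA
import Vale.Agent.P141.H972.NumQ

/-!
# P141, line (A): the node forms of the flow part, one slot on one plane of one grid

* `capC_FD` : the matrix cap of the stacked slot;
* `RX_CAS` : the pair `(C~, A)`, crude;
* `one_slot` : `FM1` from `PCA`, `PBC`, `PZB`.
-/

namespace Vale.Agent.P141.H972

open Finset Matrix
open Vale.Agent.P075 (gramC gramR)
open Vale.Agent.P141.PL (Pt iv hs ix mem_iv ix_ix cx cb)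
open Vale.Agent.P141.PL.H804 (bx3 bl)
open Vale.Agent.P141.PL.H315 (Tri)
open Vale.Agent.P141.H958 (lbs)
open Vale.Agent.P141.H609 (RP NM)
open Vale.Agent.P141.H581 (RX UX RX_nonneg)
open Vale.Agent.P141.H747 (sft shA shB shC sG sL MA MB MC MSb MSc RgS)
open Vale.Agent.P141.H677 (rt)
open Vale.Agent.P141.H677.Sk (FamA FamV FDs FD FM1 Slt SlotN)
open Vale.Agent.P141.H305 (Cls)
open Vale.Agent.P141.H215 (capV)

noncomputable section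

open scoped Classical

set_option linter.unusedSectionVars false

variable {ι : Type} [Fintype ι] [DecidableEq ι]

section one

variable {q : H401.Num} {n : ℕ} {ez : ℝ}
  {F1 F2 F3 : ℕ → Pt → ℝ} {K : ℕ} {x : Pt} {s r P : ℝ} {U : Tri} {g : ℤ → ℤ → ℝ}
  {u v : ℤ → ℤ → ι → ℝ} {A : FamA} {b C : FamV ι} {Q1 Q2 Q3 : ℕ → Pt → Prop}
  {v' : ℤ → ℤ → ι → ℝ} {L : ℕ} {e : ι ⊕ ι → ℤ} {R : Slt ι} {κ ε : ℝ}

/-- **The matrix cap of the stacked slot.** -/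
theorem capC_FD (h : FDs q n ez F1 F2 F3 K x s r U g u v A b C Q1 Q2 Q3 v')
    (hC : Cls K x s r P U g u v) (hΛ : 0 ≤ q.Lm) (hs : 0 ≤ s) (hez : 0 ≤ ez) (hKn : K ≤ n)
    (he : Function.Injective e) (hm : ∀ i, e i ∈ lbs L)
    (hR : ∀ x0 z x1, ∀ a : ι → ℝ, (R x0 0 z x1 *ᵥ a) ⬝ᵥ (R x0 0 z x1 *ᵥ a) ≤ κ ^ 2 * (a ⬝ᵥ a))
    {cC : ℝ} (hc0 : 0 < cC) (hc : cC ^ 2 = (ε ^ 2 + κ ^ 2) * (4 * capV q.Lm s ez)) (sh : Pt)
    (x0 : ℤ) (nd : ℕ → Finset Pt) :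
    ∀ k ∈ Icc 1 (K + L), ∀ m ∈ sL L nd k,
      (1 - gramC ((cC ^ 2)⁻¹ * (4 ^ k)⁻¹)
        (MC K (cx K x) R C L e ε sh x0 k m)).PosSemidef := by
  refine H747.fam_psdC he hm hc0 fun k hk m _ => ?_
  rw [mem_Icc] at hk
  have h0 : 0 ≤ ε ^ 2 + κ ^ 2 := by positivity
  have h1 := (H215.fd_shift h hC hΛ hs hez hKn (k := k) (i := k) (j := k) le_rfl le_rfl hk.2 hk.2
    x0 sh m.1 m.2.2).flip
  have h2 := h1.fam (C' := fun x1 z => MSc K (cx K x) R C ε sh x0 k z x1) (t := √(ε ^ 2 + κ ^ 2))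
    (Real.sqrt_nonneg _) (by
      intro x1 _ z _
      rw [Real.sq_sqrt h0]
      have h3 := H747.RgS_le (hR x0) sh.2.2 sh.1 k (ix k z) x1 (shC K (cx K x) sh (C x0) k z x1)
      have e1 : MSc K (cx K x) R C ε sh x0 k z x1 ⬝ᵥ MSc K (cx K x) R C ε sh x0 k z x1 =
          ε ^ 2 * (shC K (cx K x) sh (C x0) k z x1 ⬝ᵥ shC K (cx K x) sh (C x0) k z x1) +
          (RgS R sh.2.2 sh.1 x0 k (ix k z) x1 *ᵥ shC K (cx K x) sh (C x0) k z x1) ⬝ᵥ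
            (RgS R sh.2.2 sh.1 x0 k (ix k z) x1 *ᵥ shC K (cx K x) sh (C x0) k z x1) := by
        unfold H747.MSc
        rw [dotProduct, Fintype.sum_sum_type]
        simp only [Sum.elim_inl, Sum.elim_inr, Pi.smul_apply, smul_eq_mul]
        congr 1
        rw [dotProduct, mul_sum]
        exact sum_congr rfl fun _ _ => by ring
      rw [e1]
      linarith)
  rw [Real.sq_sqrt h0] at h2
  refine H215.NCap.capS (sq_nonneg cC) ?_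
  rw [hc]
  have e2 : (ε ^ 2 + κ ^ 2) * (4 * capV q.Lm s ez * (2 ^ k * 2 ^ k)) =
      (ε ^ 2 + κ ^ 2) * (4 * capV q.Lm s ez) * (2 ^ k * 2 ^ k) := by ring
  rw [e2] at h2
  exact h2

/-- **The pair `(C~, A)`**, crude. -/
theorem RX_CAS (h : FDs q n ez F1 F2 F3 K x s r U g u v A b C Q1 Q2 Q3 v')
    (hC : Cls K x s r P U g u v) (hs : 0 ≤ s) (hΛ : 1 ≤ q.Lm) (hCD : 0 ≤ q.CD) (hez : 0 ≤ ez)
    (hKn : K ≤ n) (he : Function.Injective e) (hm : ∀ i, e i ∈ lbs L) (hκ : 0 < κ)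
    (hR : ∀ x0 z x1, ∀ a : ι → ℝ, (R x0 0 z x1 *ᵥ a) ⬝ᵥ (R x0 0 z x1 *ᵥ a) ≤ κ ^ 2 * (a ⬝ᵥ a))
    {sh : Pt} {j : ℤ} (hj : j ∈ Icc (0 : ℤ) 2) {q8 : Pt} {t : ℤ} {α β : ℝ} (hα : 0 < α)
    (hβ : 0 < β) :
    RX (iv K t) (K + L) (fun x0 => sL L (sG K (cx K x) (-x0) sh j q8)) α β
      (MC K (cx K x) R C L e ε sh) (MA K (cx K x) A L sh) ≤
        35200 * 4 ^ L * (q.cP + 2) * 8 ^ K * (α ^ 2 * (q.CD * (q.Lm * s)) +
          β ^ 2 * ((ε ^ 2 + κ ^ 2) * (4 * q.Lm * ez * s))) :=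
  H829.RX_CA_FD h hC hs hΛ hCD hez hKn he hm hj (by positivity)
    (Qg := fun x0 k n x1 => RgS R sh.2.2 sh.1 x0 k n x1)
    (fun x0 _ k _ n x1 a => H747.RgS_le (hR x0) sh.2.2 sh.1 k n x1 a) hα hβ

end one

/-- scaling and enlarging the numbers of a pair -/
theorem raw_scale {a Λ Λ' E E' V x τ X : ℝ} (ha : 0 ≤ a) (hΛ : 0 ≤ Λ) (hΛΛ : Λ ≤ Λ')
    (hE : 0 ≤ E) (hEE : E ≤ E') (hV : 0 ≤ V)
    (h : X ≤ a * (Λ * (√(x ^ 2 * E * (τ ^ 2 * V)) + τ ^ 2 * E))) :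
    X ≤ Λ' * (√(x ^ 2 * (a * E') * (τ ^ 2 * (a * V))) + τ ^ 2 * (a * E')) := by
  have e1 : x ^ 2 * (a * E') * (τ ^ 2 * (a * V)) = a ^ 2 * (x ^ 2 * E' * (τ ^ 2 * V)) := by ring
  rw [e1, Real.sqrt_mul (sq_nonneg a), Real.sqrt_sq ha]
  have h1 : √(x ^ 2 * E * (τ ^ 2 * V)) ≤ √(x ^ 2 * E' * (τ ^ 2 * V)) := by
    refine Real.sqrt_le_sqrt ?_
    gcongr
  have h2 : τ ^ 2 * E ≤ τ ^ 2 * E' := by gcongr
  have h3 : 0 ≤ √(x ^ 2 * E * (τ ^ 2 * V)) := Real.sqrt_nonneg _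
  have h4 : 0 ≤ τ ^ 2 * E := by positivity
  have h5 : Λ * (√(x ^ 2 * E * (τ ^ 2 * V)) + τ ^ 2 * E) ≤
      Λ' * (√(x ^ 2 * E' * (τ ^ 2 * V)) + τ ^ 2 * E') :=
    mul_le_mul hΛΛ (add_le_add h1 h2) (by positivity) (hΛ.trans hΛΛ)
  refine h.trans ((mul_le_mul_of_nonneg_left h5 ha).trans (le_of_eq ?_))
  ring

section slot

variable {q : H401.Num} {n : ℕ}
  {F1 F2 F3 : ℕ → Pt → ℝ} {K : ℕ} {x : Pt} {s r P : ℝ} {U : Tri} {g : ℤ → ℤ → ℝ}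
  {u v : ℤ → ℤ → ι → ℝ} {A : FamA} {b C : FamV ι} {Q1 Q2 Q3 : ℕ → Pt → Prop}
  {v' : ℤ → ℤ → ι → ℝ} {L : ℕ} {e : ι ⊕ ι → ℤ} {R : Slt ι} {κ : ℝ}

/-- **One slot on one plane of one grid.** -/
theorem one_slot (h : FDs q n 1 F1 F2 F3 K x s r U g u v A b C Q1 Q2 Q3 v')
    (hC : Cls K x s r P U g u v) (hΛ : 1 ≤ q.Lm) (hs : 0 < s) (hCD : 1 ≤ q.CD) (hcP : 0 ≤ q.cP)
    (hKn : K ≤ n) (hth : 0 < q.th s r) (he : Function.Injective e) (hm : ∀ i, e i ∈ lbs L)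
    (hκ : 1 ≤ κ)
    (hR : ∀ x0 z x1, ∀ a : ι → ℝ, (R x0 0 z x1 *ᵥ a) ⬝ᵥ (R x0 0 z x1 *ᵥ a) ≤ κ ^ 2 * (a ⬝ᵥ a))
    {m C0 H N N' H' : ℝ} (hm0 : 0 < m) (hm1 : m ≤ 1) (hC0 : 1 ≤ C0) (hH : 1 ≤ H) (hN : 0 ≤ N)
    (hNN : N ≤ N') (hHH : H ≤ H')
    (n1 : 70400 * (q.cP + 2) * (q.CD + 8) * (q.Lm * s) * 8 ^ K ≤ N') (n2 : κ ^ 2 ≤ H')
    (n3 : √((√m + κ ^ 2) * (16 * √(q.Lm * s))) ≤ H' * (2 * q.th s r)) {sh : Pt} {j : ℤ}
    (hj : j ∈ Icc (0 : ℤ) 2) {q8 : Pt}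
    (H1 : ∀ t ∈ rt (cx K x), PCA ι K (cx K x) R A b C L e sh j q8 t (2 * q.th s r) m C0 H N)
    (H2 : ∀ t ∈ rt (cx K x), PBC ι K (cx K x) R A b C L e sh j q8 t (2 * q.th s r) m C0 H N)
    (H3 : ∀ t ∈ rt (cx K x), PZB ι K (cx K x) R A b C L e sh j q8 t (2 * q.th s r) m C0 H N) :
    FM1 K (cx K x) R A b C sh j q8 ≤
      3 * (162 * (1 + C0 * (1 + Real.log (√(√m + κ ^ 2) * (H' / m) / m)) ^ 3) *
        (1 + Real.log (√(√m + κ ^ 2) * (H' / m) / m)) *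
          (N' * (2 * q.th s r) * m ^ (1 / 8 : ℝ))) := by
  have hτ : 0 < 2 * q.th s r := by linarith
  have hκ0 : 0 < κ := by linarith
  have hκ2 : 1 ≤ κ ^ 2 := one_le_pow₀ hκ
  have hsm : 0 < √m := Real.sqrt_pos.2 hm0
  have hsm1 : √m ≤ 1 := by
    rw [← Real.sqrt_one]
    exact Real.sqrt_le_sqrt hm1
  have hN' : 0 ≤ N' := hN.trans hNN
  have hH' : 1 ≤ H' := hH.trans hHH
  have hH'0 : 0 < H' := by linarith
  have hHm : H' ≤ H' / m := by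
    rw [le_div_iff₀ hm0]
    nlinarith
  have hε : (m ^ (1 / 4 : ℝ)) ^ 2 = √m := by
    rw [← Real.rpow_natCast (m ^ (1 / 4 : ℝ)) 2, ← Real.rpow_mul hm0.le, Real.sqrt_eq_rpow]
    norm_num
  have hkk : 1 ≤ √(√m + κ ^ 2) := by
    rw [← Real.sqrt_one]
    exact Real.sqrt_le_sqrt (by linarith)
  have hkk2 : √(√m + κ ^ 2) ^ 2 = √m + κ ^ 2 := Real.sq_sqrt (by positivity)
  have hLs : 0 < q.Lm * s := by
    have : 0 < q.Lm := by linarith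
    positivity
  have hcC0 : 0 < (√m + κ ^ 2) * (16 * √(q.Lm * s)) := by
    have : 0 < √(q.Lm * s) := Real.sqrt_pos.2 hLs
    positivity
  have hcC : 0 < √((√m + κ ^ 2) * (16 * √(q.Lm * s))) := Real.sqrt_pos.2 hcC0
  have hlog : Real.log (H / m) ≤ Real.log (√(√m + κ ^ 2) * (H' / m) / m) := by
    refine Real.log_le_log (by positivity) ?_
    have h1 : H ≤ √(√m + κ ^ 2) * (H' / m) := by
      calc H ≤ H' / m := hHH.trans hHm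
        _ = 1 * (H' / m) := (one_mul _).symm
        _ ≤ _ := by gcongr
    gcongr
  have hlog0 : 0 ≤ Real.log (H / m) := by
    refine Real.log_nonneg ?_
    rw [le_div_iff₀ hm0]
    linarith
  have hΛ3 : C0 * (1 + Real.log (H / m)) ^ 3 ≤
      C0 * (1 + Real.log (√(√m + κ ^ 2) * (H' / m) / m)) ^ 3 := by
    gcongr
  have hΛ0 : 0 ≤ C0 * (1 + Real.log (√(√m + κ ^ 2) * (H' / m) / m)) ^ 3 := by
    have := hlog0.trans hlog
    positivity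
  have hA : √(4 * q.th s r ^ 2) = 2 * q.th s r := by
    have e1 : 4 * q.th s r ^ 2 = (2 * q.th s r) ^ 2 := by ring
    rw [e1, Real.sqrt_sq hτ.le]
  have h4L : (0 : ℝ) < 4 ^ L := by positivity
  have h8K : (0 : ℝ) < 8 ^ K := by positivity
  refine H747.FM1_le K (cx K x) R A b C he hm (ε := m ^ (1 / 4 : ℝ)) (cA := 2 * q.th s r)
    (cB := 2 * q.th s r) (cC := √((√m + κ ^ 2) * (16 * √(q.Lm * s)))) fun t ht => ?_
  obtain ⟨Λ1, E1, EA, a1, a2, a3, a4, a5, a6, a7⟩ := H1 t ht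
  obtain ⟨Λ2, E2, EV, b1, b2, b3, b4, b5, b6, b7⟩ := H2 t ht
  obtain ⟨Z, c1, c2, c3⟩ := H3 t ht
  have st := stage_tau (I := iv K t) (N := K + L)
    (s := fun x0 => sL L (sG K (cx K x) (-x0) sh j q8)) (τ := 2 * q.th s r)
    (cC := √((√m + κ ^ 2) * (16 * √(q.Lm * s)))) (FA := MA K (cx K x) A L sh)
    (FB := MB K (cx K x) b L e sh) (FC := MC K (cx K x) R C L e (m ^ (1 / 4 : ℝ)) sh) hτ hcC
    (fun x0 _ => by
      have h1 := H747.capMA (L := L) (M := cx K x) (pow_pos hth 2) sh (h.capA x0)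
        (sG K (cx K x) (-x0) sh j q8)
      rw [hA] at h1
      exact h1)
    (fun x0 _ => by
      have h1 := H747.capMB (M := cx K x) he hm (pow_pos hth 2) sh (h.capb x0)
        (sG K (cx K x) (-x0) sh j q8)
      rw [hA] at h1
      exact h1)
    (fun x0 _ => capC_FD h hC (by linarith) hs.le zero_le_one hKn he hm hR hcC (by
      rw [Real.sq_sqrt hcC0.le, hε]
      unfold H215.capV
      ring) sh x0 _)
  have cl := close_m' (m := m) (H := H' / m)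
    (Λ := C0 * (1 + Real.log (√(√m + κ ^ 2) * (H' / m) / m)) ^ 3) (N := 4 ^ L * N')
    (K := √(√m + κ ^ 2)) (E := 4 ^ L * max E1 E2) (EA := 4 ^ L * EA) (EV := 4 ^ L * EV)
    (P₀ := 4 ^ L * 8 ^ K * (70400 * (q.cP + 2) * q.CD * (q.Lm * s)))
    (P₁ := 35200 * 4 ^ L * (q.cP + 2) * 8 ^ K * (q.CD * (q.Lm * s) + 4 * q.Lm * 1 * s))
    (Z := 4 ^ L * max Z (35200 * (q.cP + 2) * 8 ^ K * (q.CD * (q.Lm * s) +
      (√m + κ ^ 2) * (4 * q.Lm * 1 * s))))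
    hm0 hm1 (hH'.trans hHm) hkk hΛ0 (by positivity) hτ
    (mul_nonneg h4L.le (a2.trans (le_max_left _ _))) (mul_nonneg h4L.le a3)
    (mul_nonneg h4L.le b3) (by positivity) (by positivity)
    (mul_nonneg h4L.le (c1.trans (le_max_left _ _))) st (fun _ _ => RX_nonneg) ?_ ?_ ?_ ?_ ?_ ?_
    ?_ ?_ ?_ ?_ ?_ ?_ ?_
  · refine cl.trans (le_of_eq ?_)
    ring
  · intro y hy _
    exact hAB_FD he hm h hKn hcP (by positivity) t sh hj q8 hy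
  · intro y hy
    exact raw_scale h4L.le b1 (b4.trans hΛ3) b2 (le_max_right _ _) b3 (b7 y hy)
  · intro y hy
    exact raw_scale h4L.le a1 (a4.trans hΛ3) a2 (le_max_left _ _) a3 (a7 y hy)
  · intro y y' hy' hyy _
    have hy : 0 < y := lt_of_lt_of_le (by positivity) hyy
    refine (RX_CAS h hC hs.le hΛ (by linarith) zero_le_one hKn he hm hκ0 hR hj hy hy').trans ?_
    rw [hε]
    have h1 : y' ^ 2 * (√m + κ ^ 2) ≤ y ^ 2 := by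
      have h2 := pow_le_pow_left₀ (by positivity) hyy 2
      rw [mul_pow, hkk2] at h2
      linarith
    have h3 : y' ^ 2 * ((√m + κ ^ 2) * (4 * q.Lm * 1 * s)) ≤ y ^ 2 * (4 * q.Lm * 1 * s) := by
      have := mul_le_mul_of_nonneg_right h1 (by positivity : 0 ≤ 4 * q.Lm * 1 * s)
      linarith
    have h4 : 0 ≤ 35200 * 4 ^ L * (q.cP + 2) * 8 ^ K := by positivity
    calc 35200 * 4 ^ L * (q.cP + 2) * 8 ^ K * (y ^ 2 * (q.CD * (q.Lm * s)) +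
          y' ^ 2 * ((√m + κ ^ 2) * (4 * q.Lm * 1 * s))) ≤
        35200 * 4 ^ L * (q.cP + 2) * 8 ^ K * (y ^ 2 * (q.CD * (q.Lm * s)) +
          y ^ 2 * (4 * q.Lm * 1 * s)) := by gcongr
      _ = _ := by ring
  · intro y hy hy2
    refine (c3 y hy hy2).trans ?_
    have : Z ≤ max Z (35200 * (q.cP + 2) * 8 ^ K * (q.CD * (q.Lm * s) +
      (√m + κ ^ 2) * (4 * q.Lm * 1 * s))) := le_max_left _ _
    calc 4 ^ L * (Z * y ^ 2) ≤ 4 ^ L * (max Z (35200 * (q.cP + 2) * 8 ^ K * (q.CD * (q.Lm * s) +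
        (√m + κ ^ 2) * (4 * q.Lm * 1 * s))) * y ^ 2) := by gcongr
      _ = _ := by ring
  · intro y hy _
    refine (RX_CAS h hC hs.le hΛ (by linarith) zero_le_one hKn he hm hκ0 hR hj hy hy).trans ?_
    rw [hε]
    have : 35200 * (q.cP + 2) * 8 ^ K * (q.CD * (q.Lm * s) +
      (√m + κ ^ 2) * (4 * q.Lm * 1 * s)) ≤ max Z (35200 * (q.cP + 2) * 8 ^ K *
        (q.CD * (q.Lm * s) + (√m + κ ^ 2) * (4 * q.Lm * 1 * s))) := le_max_right _ _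
    calc 35200 * 4 ^ L * (q.cP + 2) * 8 ^ K * (y ^ 2 * (q.CD * (q.Lm * s)) +
          y ^ 2 * ((√m + κ ^ 2) * (4 * q.Lm * 1 * s))) =
        4 ^ L * (35200 * (q.cP + 2) * 8 ^ K * (q.CD * (q.Lm * s) +
          (√m + κ ^ 2) * (4 * q.Lm * 1 * s))) * y ^ 2 := by ring
      _ ≤ _ := by gcongr
  · -- `P₀`
    have h1 : 70400 * (q.cP + 2) * q.CD * (q.Lm * s) * 8 ^ K ≤
        70400 * (q.cP + 2) * (q.CD + 8) * (q.Lm * s) * 8 ^ K := by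
      gcongr
      linarith
    calc 4 ^ L * 8 ^ K * (70400 * (q.cP + 2) * q.CD * (q.Lm * s)) =
        4 ^ L * (70400 * (q.cP + 2) * q.CD * (q.Lm * s) * 8 ^ K) := by ring
      _ ≤ 4 ^ L * N' := mul_le_mul_of_nonneg_left (h1.trans n1) h4L.le
  · -- `P₁`
    have h1 : 35200 * (q.cP + 2) * (q.CD + 4) * (q.Lm * s) * 8 ^ K ≤
        70400 * (q.cP + 2) * (q.CD + 8) * (q.Lm * s) * 8 ^ K := by
      have h2 : 35200 * (q.cP + 2) ≤ 70400 * (q.cP + 2) := by linarith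
      gcongr
      linarith
    calc 35200 * 4 ^ L * (q.cP + 2) * 8 ^ K * (q.CD * (q.Lm * s) + 4 * q.Lm * 1 * s) =
        4 ^ L * (35200 * (q.cP + 2) * (q.CD + 4) * (q.Lm * s) * 8 ^ K) := by ring
      _ ≤ 4 ^ L * N' := mul_le_mul_of_nonneg_left (h1.trans n1) h4L.le
  · exact mul_le_mul_of_nonneg_left (a6.trans hNN) h4L.le
  · have h1 : max E1 E2 ≤ N' * √m :=
      max_le (a5.trans (by gcongr)) (b5.trans (by gcongr))
    calc 4 ^ L * max E1 E2 ≤ 4 ^ L * (N' * √m) := mul_le_mul_of_nonneg_left h1 h4L.le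
      _ = _ := by ring
  · calc 4 ^ L * EV * √m = 4 ^ L * (EV * √m) := by ring
      _ ≤ 4 ^ L * N' := mul_le_mul_of_nonneg_left (b6.trans hNN) h4L.le
  · -- `Z`
    have h1 : Z ≤ N' * (H' / m) := by
      have h2 : Z * m ≤ N' * H' := c2.trans (by gcongr)
      rw [← mul_div_assoc, le_div_iff₀ hm0]
      exact h2
    have h3 : 35200 * (q.cP + 2) * 8 ^ K * (q.CD * (q.Lm * s) +
        (√m + κ ^ 2) * (4 * q.Lm * 1 * s)) ≤ N' * (H' / m) := by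
      have h4 : q.CD + (√m + κ ^ 2) * 4 ≤ (q.CD + 8) * κ ^ 2 := by nlinarith
      calc 35200 * (q.cP + 2) * 8 ^ K * (q.CD * (q.Lm * s) +
            (√m + κ ^ 2) * (4 * q.Lm * 1 * s)) =
          35200 * (q.cP + 2) * (q.CD + (√m + κ ^ 2) * 4) * (q.Lm * s) * 8 ^ K := by ring
        _ ≤ 70400 * (q.cP + 2) * ((q.CD + 8) * κ ^ 2) * (q.Lm * s) * 8 ^ K := by
            have h5 : 35200 * (q.cP + 2) ≤ 70400 * (q.cP + 2) := by linarith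
            gcongr
        _ = (70400 * (q.cP + 2) * (q.CD + 8) * (q.Lm * s) * 8 ^ K) * κ ^ 2 := by ring
        _ ≤ N' * H' := mul_le_mul n1 n2 (by positivity) hN'
        _ ≤ N' * (H' / m) := mul_le_mul_of_nonneg_left hHm hN'
    calc 4 ^ L * max Z (35200 * (q.cP + 2) * 8 ^ K * (q.CD * (q.Lm * s) +
          (√m + κ ^ 2) * (4 * q.Lm * 1 * s))) ≤ 4 ^ L * (N' * (H' / m)) :=
        mul_le_mul_of_nonneg_left (max_le h1 h3) h4L.le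
      _ = _ := by ring
  · exact n3.trans (mul_le_mul_of_nonneg_right hHm hτ.le)

end slot

end

end Vale.Agent.P141.H972
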