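import Vale.Agent.P141.H972.AsmPM
import Vale.Agent.P141.H204.FibD

/-!
# P141, line (A): the price of the node forms for one slot, bundle with small fibres

* `bunN_FDU`, **`priceB_FDU`**.
-/

namespace Vale.Agent.P141.H972

open Vale.Agent.P141.H401 (Bun)
open Vale.Agent.P141.H677.Sk (FD FM1)
open Vale.Agent.P141.H939 (PriceB)
open Vale.Agent.P141.H204.Fib (WF FDU)

noncomputable section

theorem BunN.wf {D : Bun} (hD : BunN D) : BunN (WF D) := by
  intro ι _ _ p n ez F1 F2 F3 o K x s r U g u v A b C h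
  obtain ⟨f1, f2, h⟩ := h
  obtain ⟨h1, h2⟩ := hD ι p n ez F1 F2 F3 o K x s r U g u v A b C h
  exact ⟨h1, fun z hz hez => ⟨f1, f2, h2 z hz hez⟩⟩

theorem bunN_FDU : BunN FDU := bunN_FD.wf

/-- **The price of the node forms for one slot, small fibres.** -/
theorem priceB_FDU (H1 : NumQ FDU PCA) (H2 : NumQ FDU PBC) (H3 : NumQ FDU PZB) :
    PriceB FDU fun _ι _ _ K M R A b C h j e => FM1 K M R A b C h j e :=
  priceB_of_num bunN_FDU H1 H2 H3

end

end Vale.Agent.P141.H972
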