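import Vale.Agent.P141.H747.GridF
import Vale.Agent.P141.H581.StageX
import Vale.Agent.P141.H210.ShiftO
import Vale.Agent.P141.H205.HPart
import Vale.Agent.P141.H958.PairsE

/-!
# P141, line (A): the static pair `(A, b)` on the shifted grids, any two levels

* `RP_prs_AB`, `RP_prs_BC`, `RP_prs_CA` : the raw pair sum `H609.RP` at the levels `x`, `y` as the
  pair sum `H958.prs` of the weighted paths;
* `RP_AB_le` : two paths with `L²` energies;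
* `RP_lab_AB` : the same for the labelled matrices of `H747`, one point `x₀`;
* `planes` : the planes of the shifted grid;
* `slice'`, `pwr_grid`, `pwrK_grid` : energies of the translated, cut families, summed over `x₀`;
* `RX_AB` : the pair sum of the family, in the letters of `H581.stageY` (hypotheses `hAB`, `hAB'`).
-/

namespace Vale.Agent.P141.H972

open Finset Matrix
open Vale.Agent.P075 (Ix)
open Vale.Agent.P141.PL (Pt iv hs ix mem_iv ix_ix self_mem_iv)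
open Vale.Agent.P141.PL.H588 (hd Pl)
open Vale.Agent.P141.PL.H804 (bx3 bl M2 M2_nonneg hd_symm mnk_two mnk_three mnk_one)
open Vale.Agent.P141.H736 (Path sqb sqb_nonneg)
open Vale.Agent.P141.H958 (prs wp sp dup encR lbs L2E pwr fl shF shF_add shQ shs shc shc_pl Aff
  PackQ sum_Aff pairE22 pwr_nonneg)
open Vale.Agent.P141.H609 (RP NM)
open Vale.Agent.P141.H338 (cu L2E_encR L2E_dup shs_sub pwr_dup)
open Vale.Agent.P141.H205 (pwrK ef path_ef pwr_ef)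
open Vale.Agent.P141.H210 (two sum_two ix_mem_two Qsh Qr PackS pack_rst path_tr path_rst path_sh
  shf rst sqb_sh ix_root)
open Vale.Agent.P141.H581 (RX)
open Vale.Agent.P141.H747 (sft sft_shf shA shB sG sL gA gB)
open Vale.Agent.P141.H795 (ys)
open Vale.Agent.P141.H677 (rv)

noncomputable section

open scoped Classical

/-! ### The raw pair sum as a pair sum of paths -/

section prs

variable {N : ℕ} {R : Pt} {c : ℕ → ℤ} {s : ℕ → Finset Pt}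

theorem restr (hs : ∀ k ∈ Icc 1 N, s k ⊆ bx3 N R k (c k)) {f : ℕ → Pt → ℝ}
    (hf : ∀ k m, 0 ≤ f k m) {g : ℕ → ℝ} (x y : ℝ)
    (h : ∀ k ∈ Icc 1 N, g k = ∑ m ∈ bx3 N R k (c k), f k m) :
    ∑ k ∈ Icc 1 N, ∑ m ∈ s k, x ^ 2 * y ^ 2 * f k m ≤ x ^ 2 * y ^ 2 * ∑ k ∈ Icc 1 N, g k := by
  rw [mul_sum]
  refine sum_le_sum fun k hk => ?_
  rw [← mul_sum, h k hk]
  exact mul_le_mul_of_nonneg_left
    (sum_le_sum_of_subset_of_nonneg (hs k hk) fun m _ _ => hf k m) (by positivity)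

/-- hub `x₂` -/
theorem RP_prs_AB (hs : ∀ k ∈ Icc 1 N, s k ⊆ bx3 N R k (c k)) (A B : ℕ → ℤ → ℤ → ℝ) (x y : ℝ) :
    RP N s x y (fun k m => bl k (A k) m.1 m.2.1) (fun k m => bl k (B k) m.2.1 m.2.2) ≤
      x ^ 2 * y ^ 2 * prs N R.1 R.2.1 R.2.2 c (wp (x ^ 2)⁻¹ A) (wp (y ^ 2)⁻¹ (sp B)) := by
  unfold H609.RP H958.prs
  refine restr hs (f := fun k m => 4 ^ k * M2 (hd k) ((x ^ 2)⁻¹ * (4 ^ k)⁻¹)
    ((y ^ 2)⁻¹ * (4 ^ k)⁻¹) (bl k (A k) m.1 m.2.1) (bl k (B k) m.2.1 m.2.2)) ?_ x y ?_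
  · exact fun k m => mul_nonneg (by positivity)
      (M2_nonneg (hd_symm _) (by positivity) (by positivity) _ _)
  · exact fun k _ => mnk_two N R k (c k) (by positivity) (by positivity) (A k) (B k)

/-- hub `x₁` -/
theorem RP_prs_BC (hs : ∀ k ∈ Icc 1 N, s k ⊆ bx3 N R k (c k)) (B C : ℕ → ℤ → ℤ → ℝ) (x y : ℝ) :
    RP N s x y (fun k m => bl k (B k) m.2.1 m.2.2) (fun k m => (bl k (C k) m.1 m.2.2)ᵀ) ≤
      x ^ 2 * y ^ 2 * prs N R.2.1 R.2.2 R.1 c (wp (x ^ 2)⁻¹ B) (wp (y ^ 2)⁻¹ C) := by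
  unfold H609.RP H958.prs
  refine restr hs (f := fun k m => 4 ^ k * M2 (hd k) ((x ^ 2)⁻¹ * (4 ^ k)⁻¹)
    ((y ^ 2)⁻¹ * (4 ^ k)⁻¹) (bl k (B k) m.2.1 m.2.2) (bl k (C k) m.1 m.2.2)ᵀ) ?_ x y ?_
  · exact fun k m => mul_nonneg (by positivity)
      (M2_nonneg (hd_symm _) (by positivity) (by positivity) _ _)
  · exact fun k _ => mnk_three N R k (c k) (by positivity) (by positivity) (B k) (C k)

/-- hub `x₃` -/
theorem RP_prs_CA (hs : ∀ k ∈ Icc 1 N, s k ⊆ bx3 N R k (c k)) (C A : ℕ → ℤ → ℤ → ℝ) (x y : ℝ) :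
    RP N s x y (fun k m => (bl k (C k) m.1 m.2.2)ᵀ) (fun k m => bl k (A k) m.1 m.2.1) ≤
      x ^ 2 * y ^ 2 * prs N R.2.1 R.1 R.2.2 c (wp (y ^ 2)⁻¹ (sp A)) (wp (x ^ 2)⁻¹ (sp C)) := by
  unfold H609.RP H958.prs
  refine restr hs (f := fun k m => 4 ^ k * M2 (hd k) ((x ^ 2)⁻¹ * (4 ^ k)⁻¹)
    ((y ^ 2)⁻¹ * (4 ^ k)⁻¹) (bl k (C k) m.1 m.2.2)ᵀ (bl k (A k) m.1 m.2.1)) ?_ x y ?_
  · exact fun k m => mul_nonneg (by positivity)
      (M2_nonneg (hd_symm _) (by positivity) (by positivity) _ _)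
  · exact fun k _ => mnk_one N R k (c k) (by positivity) (by positivity) (A k) (C k)

theorem lev_id {x y a b : ℝ} (hx : 0 < x) (hy : 0 < y) :
    x ^ 2 * y ^ 2 * (550 * ((x ^ 2)⁻¹ * a + (y ^ 2)⁻¹ * b)) = 550 * (y ^ 2 * a + x ^ 2 * b) := by
  field_simp

/-- **Hub `x₂`: two paths with `L²` energies at any two levels.** -/
theorem RP_AB_le (hc : Pl c) (hs : ∀ k ∈ Icc 1 N, s k ⊆ bx3 N R k (c k)) {A B : ℕ → ℤ → ℤ → ℝ}
    {QA QB : ℕ → ℤ → ℤ → Prop} {DA DB x y : ℝ} (hx : 0 < x) (hy : 0 < y)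
    (eA : L2E N R.1 R.2.1 QA A DA) (eB : L2E N R.2.1 R.2.2 QB B DB) :
    RP N s x y (fun k m => bl k (A k) m.1 m.2.1) (fun k m => bl k (B k) m.2.1 m.2.2) ≤
      550 * (y ^ 2 * DA + x ^ 2 * DB) := by
  refine (RP_prs_AB hs A B x y).trans ?_
  have h := pairE22 hc (eA.smul (by positivity : 0 ≤ (x ^ 2)⁻¹))
    (eB.swap.smul (by positivity : 0 ≤ (y ^ 2)⁻¹))
  exact (mul_le_mul_of_nonneg_left h (by positivity)).trans (le_of_eq (lev_id hx hy))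

/-- **Hub `x₁`.** -/
theorem RP_BC_le (hc : Pl c) (hs : ∀ k ∈ Icc 1 N, s k ⊆ bx3 N R k (c k)) {B C : ℕ → ℤ → ℤ → ℝ}
    {QB QC : ℕ → ℤ → ℤ → Prop} {DB DC x y : ℝ} (hx : 0 < x) (hy : 0 < y)
    (eB : L2E N R.2.1 R.2.2 QB B DB) (eC : L2E N R.1 R.2.2 QC C DC) :
    RP N s x y (fun k m => bl k (B k) m.2.1 m.2.2) (fun k m => (bl k (C k) m.1 m.2.2)ᵀ) ≤
      550 * (y ^ 2 * DB + x ^ 2 * DC) := by
  refine (RP_prs_BC hs B C x y).trans ?_
  have h := pairE22 hc (eB.smul (by positivity : 0 ≤ (x ^ 2)⁻¹))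
    (eC.smul (by positivity : 0 ≤ (y ^ 2)⁻¹))
  exact (mul_le_mul_of_nonneg_left h (by positivity)).trans (le_of_eq (lev_id hx hy))

/-- **Hub `x₃`.** -/
theorem RP_CA_le (hc : Pl c) (hs : ∀ k ∈ Icc 1 N, s k ⊆ bx3 N R k (c k)) {C A : ℕ → ℤ → ℤ → ℝ}
    {QC QA : ℕ → ℤ → ℤ → Prop} {DC DA x y : ℝ} (hx : 0 < x) (hy : 0 < y)
    (eC : L2E N R.1 R.2.2 QC C DC) (eA : L2E N R.1 R.2.1 QA A DA) :
    RP N s x y (fun k m => (bl k (C k) m.1 m.2.2)ᵀ) (fun k m => bl k (A k) m.1 m.2.1) ≤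
      550 * (y ^ 2 * DC + x ^ 2 * DA) := by
  refine (RP_prs_CA hs C A x y).trans ?_
  have h := pairE22 hc (eA.swap.smul (by positivity : 0 ≤ (y ^ 2)⁻¹))
    (eC.swap.smul (by positivity : 0 ≤ (x ^ 2)⁻¹))
  refine (mul_le_mul_of_nonneg_left h (by positivity)).trans (le_of_eq ?_)
  rw [mul_comm (x ^ 2) (y ^ 2), lev_id hy hx]
  ring

end prs

/-! ### Labels, one point -/

variable {κ : Type*} [Fintype κ] {L : ℕ} {e : κ → ℤ}

/-- the raw pair sum only sees the used nodes -/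
theorem RP_congr {N : ℕ} {s : ℕ → Finset Pt} {x y : ℝ} {F F' H H' : NM}
    (hF : ∀ k ∈ Icc 1 N, ∀ m ∈ s k, F k m = F' k m) (hH : ∀ k ∈ Icc 1 N, ∀ m ∈ s k, H k m = H' k m) :
    RP N s x y F H = RP N s x y F' H' := by
  unfold H609.RP
  refine sum_congr rfl fun k hk => sum_congr rfl fun m hm => ?_
  rw [hF k hk m hm, hH k hk m hm]

theorem sL_lt {s : ℕ → Finset Pt} {k : ℕ} {m : Pt} (hm : m ∈ sL L s k) : L < k := by
  unfold H747.sL at hm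
  split_ifs at hm with h
  · exact h
  · exact absurd hm (notMem_empty m)

theorem gA_shF (A : ℕ → ℤ → ℤ → ℝ) {k : ℕ} (hk : L < k) :
    gA L A k = shF L (fun j => dup L (A j)) k := by
  unfold H747.gA H958.shF
  rw [if_pos hk.le]

theorem gB_shF (b : ℕ → ℤ → ℤ → κ → ℝ) {k : ℕ} (hk : L < k) :
    gB L e b k = shF L (fun j => encR L (ef e (b j))) k := by
  unfold H747.gB H958.shF
  rw [if_pos hk.le]
  rfl

/-- **One point `x₀`: the pair `(A, b)` at any two levels, labels as last digits.** -/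
theorem RP_lab_AB (he : Function.Injective e) (hm : ∀ i, e i ∈ lbs L) {N : ℕ} {R : Pt}
    {c : ℕ → ℤ} (hc : Pl c) {s : ℕ → Finset Pt} (hs : ∀ k ∈ Icc 1 N, s k ⊆ bx3 N R k (c k))
    {A : ℕ → ℤ → ℤ → ℝ} {b : ℕ → ℤ → ℤ → κ → ℝ} {QA QB : ℕ → ℤ → ℤ → Prop}
    (pA : Path N R.1 R.2.1 QA A) (zA : A 0 = 0)
    (pB : ∀ l, Path N R.2.2 R.2.1 QB (fun k x y => b k x y l)) (zB : b 0 = 0)
    {x y : ℝ} (hx : 0 < x) (hy : 0 < y) :
    RP (N + L) (sL L s) x y (fun k m => bl k (gA L A k) m.1 m.2.1)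
      (fun k m => bl k (gB L e b k) m.2.1 m.2.2) ≤
      550 * 4 ^ L * (y ^ 2 * pwr N R.1 R.2.1 QA A + x ^ 2 * pwrK N R.2.2 R.2.1 QB b) := by
  have eA : L2E (N + L) R.1 R.2.1 (shQ L QA) (shF L fun k => dup L (A k))
      (4 ^ L * pwr N R.1 R.2.1 QA A) := L2E_dup ⟨pA, zA, le_rfl⟩
  have zB' : (fun k => ef e (b k)) 0 = 0 := by
    funext l y x
    show cu e (b 0 x y) l = 0
    rw [zB]
    unfold H338.cu
    simp
  have eB : L2E (N + L) R.2.1 R.2.2 (shQ L (fl QB)) (shF L fun k => encR L (ef e (b k)))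
      (4 ^ L * pwrK N R.2.2 R.2.1 QB b) :=
    L2E_encR (F := fun k => ef e (b k)) zB' (fun l _ => path_ef pB l)
      (le_of_eq (pwr_ef he hm N R.2.2 R.2.1 QB b))
  have hs' : ∀ k ∈ Icc 1 (N + L), sL L s k ⊆ bx3 (N + L) R k (shc L c k) := shs_sub hs
  have e1 := RP_congr (N := N + L) (s := sL L s) (x := x) (y := y)
    (F := fun k m => bl k (gA L A k) m.1 m.2.1)
    (F' := fun k m => bl k (shF L (fun j => dup L (A j)) k) m.1 m.2.1)
    (H := fun k m => bl k (gB L e b k) m.2.1 m.2.2)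
    (H' := fun k m => bl k (shF L (fun j => encR L (ef e (b j))) k) m.2.1 m.2.2)
    (fun k _ m hm => by rw [gA_shF A (sL_lt hm)]) (fun k _ m hm => by rw [gB_shF b (sL_lt hm)])
  rw [e1]
  refine (RP_AB_le (shc_pl hc) hs' hx hy eA eB).trans (le_of_eq ?_)
  ring

/-! ### The planes of the shifted grid -/

theorem planes (y j : ℤ) (hj : j ∈ Icc (0 : ℤ) 2) : Pl fun k => ix k y - j := by
  intro k
  have h1 : ix (k + 1) y = ix k y / 2 := by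
    have h := ix_ix k 1 y
    rw [← h]
    unfold PL.ix
    norm_num
  rw [mem_Icc] at hj
  simp only
  rw [h1]
  omega

/-! ### The energies of the translated, cut families -/

/-- the abstract summation over `x₀` -/
theorem slice' {K : ℕ} {t0 R S : ℤ} {c μ : ℝ} {Q : ℕ → Pt → Prop}
    {T : ℤ → ℕ → ℤ → ℤ → ℝ} (hμ : 0 ≤ μ)
    (hT : ∀ k < K, ∀ q0 ∈ iv (K - k) t0, ∀ n m, ∑ x0 ∈ iv k q0, T x0 k n m ≤ 8 ^ k * μ)
    (hP : ∀ x0 ∈ iv K t0, ∑ k ∈ range K, ∑ m ∈ iv (K - k) S, ∑ n ∈ iv (K - k) R,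
      (if Q k (ix k x0, n, m) then (4 : ℝ) ^ k else 0) ≤ c * 4 ^ K) :
    ∑ x0 ∈ iv K t0, ∑ k ∈ range K, ∑ m ∈ iv (K - k) S, ∑ n ∈ iv (K - k) R,
      (if Q k (ix k x0, n, m) then T x0 k n m else 0) ≤ c * μ * 8 ^ K := by
  have key : ∀ k ∈ range K, ∀ m n : ℤ,
      ∑ x0 ∈ iv K t0, (if Q k (ix k x0, n, m) then T x0 k n m else 0) ≤
      ∑ x0 ∈ iv K t0, μ * (if Q k (ix k x0, n, m) then (4 : ℝ) ^ k else 0) := by
    intro k hk m n
    have hkK : k < K := mem_range.1 hk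
    rw [← PL.H804.iv_sum hkK.le t0, ← PL.H804.iv_sum hkK.le t0]
    refine sum_le_sum fun q0 hq0 => ?_
    have e1 : ∀ x0 ∈ iv k q0, (if Q k (ix k x0, n, m) then T x0 k n m else 0) =
        if Q k (q0, n, m) then T x0 k n m else 0 := by
      intro x0 hx0
      rw [mem_iv.1 hx0]
    have e2 : ∀ x0 ∈ iv k q0, μ * (if Q k (ix k x0, n, m) then (4 : ℝ) ^ k else 0) =
        if Q k (q0, n, m) then μ * 4 ^ k else 0 := by
      intro x0 hx0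
      rw [mem_iv.1 hx0]
      split_ifs <;> simp
    rw [sum_congr rfl e1, sum_congr rfl e2]
    split_ifs with h
    · refine (hT k hkK q0 hq0 n m).trans (le_of_eq ?_)
      rw [sum_const, PL.card_iv, nsmul_eq_mul]
      push_cast
      have h8 : (8 : ℝ) ^ k = 2 ^ k * 4 ^ k := by rw [← mul_pow]; norm_num
      rw [h8]
      ring
    · simp
  have e3 : ∀ (f : ℤ → ℕ → ℤ → ℤ → ℝ), ∑ x0 ∈ iv K t0, ∑ k ∈ range K, ∑ m ∈ iv (K - k) S,
      ∑ n ∈ iv (K - k) R, f x0 k n m = ∑ k ∈ range K, ∑ m ∈ iv (K - k) S, ∑ n ∈ iv (K - k) R,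
      ∑ x0 ∈ iv K t0, f x0 k n m := by
    intro f
    rw [sum_comm]
    refine sum_congr rfl fun k _ => ?_
    rw [sum_comm]
    refine sum_congr rfl fun m _ => ?_
    rw [sum_comm]
  rw [e3]
  refine (sum_le_sum fun k hk => sum_le_sum fun m _ => sum_le_sum fun n _ => key k hk m n).trans ?_
  rw [← e3]
  have h4 : ∀ x0 ∈ iv K t0, ∑ k ∈ range K, ∑ m ∈ iv (K - k) S, ∑ n ∈ iv (K - k) R,
      μ * (if Q k (ix k x0, n, m) then (4 : ℝ) ^ k else 0) ≤ μ * (c * 4 ^ K) := by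
    intro x0 hx0
    simp only [← mul_sum]
    exact mul_le_mul_of_nonneg_left (hP x0 hx0) hμ
  refine (sum_le_sum h4).trans (le_of_eq ?_)
  rw [sum_const, PL.card_iv, nsmul_eq_mul]
  push_cast
  have h8 : (8 : ℝ) ^ K = 2 ^ K * 4 ^ K := by rw [← mul_pow]; norm_num
  rw [h8]
  ring

/-- the affected squares of the point `x₀` -/
def Qx (Qc : ℕ → Pt → Prop) (x0 : ℤ) (k : ℕ) (n m : ℤ) : Prop := Qc k (ix k x0, n, m)

/-- the affected cubes of the translated family -/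
def Qt (K : ℕ) (R S a b : ℤ) (Qc : ℕ → Pt → Prop) (k : ℕ) (p : Pt) : Prop :=
  ∃ x ∈ iv k p.2.1, ∃ y ∈ iv k p.2.2, k < K ∧ ix (K - k) (ix k (x + a)) = R ∧
    ix (K - k) (ix k (y + b)) = S ∧ Qc k (p.1, ix k (x + a), ix k (y + b))

theorem Qt_iff (K : ℕ) (R S a b : ℤ) (Qc : ℕ → Pt → Prop) (x0 : ℤ) (k : ℕ) (n m : ℤ) :
    Qsh a b (Qr K R S (Qx Qc x0)) k n m ↔ Qt K R S a b Qc k (ix k x0, n, m) := Iff.rfl

theorem pack_grid {K : ℕ} {R S : ℤ} {Qc : ℕ → Pt → Prop} {x0 : ℤ} {cP : ℝ}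
    (h : PackQ K R S (Qx Qc x0) cP) (a b R' S' : ℤ) :
    ∑ k ∈ range K, ∑ m ∈ iv (K - k) S', ∑ n ∈ iv (K - k) R',
      (if Qt K R S a b Qc k (ix k x0, n, m) then (4 : ℝ) ^ k else 0) ≤ 16 * cP * 4 ^ K := by
  have h1 := (pack_rst h).sh a b K le_rfl R' S'
  refine le_trans ?_ h1
  rw [sum_range_succ]
  have h0 : (0 : ℝ) ≤ ∑ i ∈ iv (K - K) R', ∑ j ∈ iv (K - K) S',
      (if Qsh a b (Qr K R S (Qx Qc x0)) K i j then (4 : ℝ) ^ K else 0) := by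
    refine sum_nonneg fun _ _ => sum_nonneg fun _ _ => ?_
    split_ifs
    · positivity
    · exact le_rfl
  refine le_trans (le_of_eq ?_) (le_add_of_nonneg_right h0)
  refine sum_congr rfl fun k _ => ?_
  rw [sum_comm]
  rfl

/-- the mass of a translated cut square -/
theorem block_rst {K : ℕ} {R S : ℤ} {μ : ℝ} (hμ : 0 ≤ μ) {X : Type*} (I : Finset X)
    (A : X → ℤ → ℤ → ℝ) {k : ℕ} (hk : k ≤ K)
    (h : ∀ n ∈ iv (K - k) R, ∀ m ∈ iv (K - k) S, ∑ i ∈ I, sqb k n m (A i) ≤ μ) (a b n m : ℤ) :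
    ∑ i ∈ I, sqb k n m (sft K R S a b (A i)) ≤ 4 * μ := by
  set G : X → ℤ → ℤ → ℝ := fun i x y => if ix K x = R ∧ ix K y = S then A i x y else 0 with hG
  have e1 : ∀ i, sft K R S a b (A i) = fun x y => G i (x + a) (y + b) := fun i => rfl
  have hb : ∀ n m : ℤ, ∑ i ∈ I, sqb k n m (G i) ≤ μ := by
    intro n m
    by_cases hh : ix (K - k) n = R ∧ ix (K - k) m = S
    · refine le_trans (le_of_eq ?_) (h n (mem_iv.2 hh.1) m (mem_iv.2 hh.2))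
      refine sum_congr rfl fun i _ => ?_
      unfold H736.sqb
      refine sum_congr rfl fun y hy => sum_congr rfl fun x hx => ?_
      rw [hG]
      simp only
      rw [ix_root hk hx, ix_root hk hy, if_pos hh]
    · refine le_trans (le_of_eq ?_) hμ
      refine sum_eq_zero fun i _ => ?_
      unfold H736.sqb
      refine sum_eq_zero fun y hy => sum_eq_zero fun x hx => ?_
      rw [hG]
      simp only
      rw [ix_root hk hx, ix_root hk hy, if_neg hh]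
      norm_num
  have h2 : ∑ i ∈ I, sqb k n m (sft K R S a b (A i)) ≤
      ∑ i ∈ I, ∑ p ∈ two (n + ix k a), ∑ q ∈ two (m + ix k b), sqb k p q (G i) := by
    refine sum_le_sum fun i _ => ?_
    rw [e1 i]
    exact sqb_sh k a b (G i) n m
  refine h2.trans ?_
  simp only [sum_two, sum_add_distrib]
  have g1 := hb (n + ix k a) (m + ix k b)
  have g2 := hb (n + ix k a) (m + ix k b + 1)
  have g3 := hb (n + ix k a + 1) (m + ix k b)
  have g4 := hb (n + ix k a + 1) (m + ix k b + 1)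
  linarith

/-- **Energy of the translated, cut family**, scalar. -/
theorem pwr_grid {K : ℕ} {t R S : ℤ} {Qc : ℕ → Pt → Prop} {A : ℤ → ℕ → ℤ → ℤ → ℝ} {cP μ : ℝ}
    (hμ : 0 ≤ μ) (hP : ∀ x0 ∈ iv K t, PackQ K R S (Qx Qc x0) cP)
    (hM : ∀ k < K, ∀ q0 ∈ iv (K - k) t, ∀ n ∈ iv (K - k) R, ∀ m ∈ iv (K - k) S,
      ∑ x0 ∈ iv k q0, sqb k n m (A x0 (k + 1)) ≤ 8 ^ k * μ) (a b R' S' : ℤ) :
    ∑ x0 ∈ iv K t, pwr K R' S' (Qsh a b (Qr K R S (Qx Qc x0)))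
      (fun k => sft K R S a b (A x0 k)) ≤ 64 * cP * μ * 8 ^ K := by
  have e1 : ∀ x0 ∈ iv K t, pwr K R' S' (Qsh a b (Qr K R S (Qx Qc x0)))
      (fun k => sft K R S a b (A x0 k)) = ∑ k ∈ range K, ∑ m ∈ iv (K - k) S',
        ∑ n ∈ iv (K - k) R', (if Qt K R S a b Qc k (ix k x0, n, m) then
          sqb k n m (sft K R S a b (A x0 (k + 1))) else 0) := fun x0 _ => rfl
  rw [sum_congr rfl e1]
  refine (slice' (T := fun x0 k n m => sqb k n m (sft K R S a b (A x0 (k + 1))))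
    (μ := 4 * μ) (c := 16 * cP) (by positivity) (fun k hk q0 hq0 n m => ?_)
    (fun x0 hx0 => pack_grid (hP x0 hx0) a b R' S')).trans (le_of_eq (by ring))
  have h := block_rst (R := R) (S := S) (μ := 8 ^ k * μ) (by positivity) (iv k q0)
    (fun x0 => A x0 (k + 1)) hk.le (hM k hk q0 hq0) a b n m
  refine h.trans (le_of_eq ?_)
  ring

theorem sft_apply {κ : Type*} (N : ℕ) (R S a b : ℤ) (f : ℤ → ℤ → κ → ℝ) (x y : ℤ) (l : κ) :
    sft N R S a b f x y l = sft N R S a b (fun x y => f x y l) x y := by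
  unfold H747.sft
  split_ifs <;> rfl

/-- mass of a square of a vector function -/
def sqv (k : ℕ) (n m : ℤ) (F : ℤ → ℤ → κ → ℝ) : ℝ :=
  ∑ x ∈ iv k n, ∑ y ∈ iv k m, F x y ⬝ᵥ F x y

theorem sqv_eq (k : ℕ) (n m : ℤ) (F : ℤ → ℤ → κ → ℝ) :
    sqv k n m F = ∑ l, sqb k n m (fun x y => F x y l) := by
  unfold sqv H736.sqb dotProduct
  rw [sum_comm]
  simp only [sq]
  rw [sum_comm (s := univ)]
  refine sum_congr rfl fun y _ => ?_
  rw [sum_comm]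

theorem pwrK_eq (N : ℕ) (R S : ℤ) (Q : ℕ → ℤ → ℤ → Prop) (F : ℕ → ℤ → ℤ → κ → ℝ) :
    pwrK N R S Q F = ∑ k ∈ range N, ∑ m ∈ iv (N - k) S, ∑ n ∈ iv (N - k) R,
      if Q k n m then sqv k n m (F (k + 1)) else 0 := by
  unfold H205.pwrK
  rw [sum_Aff]
  rfl

/-- **Energy of the translated, cut family**, vector valued. -/
theorem pwrK_grid {K : ℕ} {t R S : ℤ} {Qc : ℕ → Pt → Prop} {b : ℤ → ℕ → ℤ → ℤ → κ → ℝ}
    {cP μ : ℝ} (hμ : 0 ≤ μ) (hP : ∀ x0 ∈ iv K t, PackQ K R S (Qx Qc x0) cP)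
    (hM : ∀ k < K, ∀ q0 ∈ iv (K - k) t, ∀ n ∈ iv (K - k) R, ∀ m ∈ iv (K - k) S,
      ∑ x0 ∈ iv k q0, sqv k n m (b x0 (k + 1)) ≤ 8 ^ k * μ) (a c R' S' : ℤ) :
    ∑ x0 ∈ iv K t, pwrK K R' S' (Qsh a c (Qr K R S (Qx Qc x0)))
      (fun k => sft K R S a c (b x0 k)) ≤ 64 * cP * μ * 8 ^ K := by
  simp only [pwrK_eq]
  have e1 : ∀ x0 ∈ iv K t, ∑ k ∈ range K, ∑ m ∈ iv (K - k) S', ∑ n ∈ iv (K - k) R',
      (if Qsh a c (Qr K R S (Qx Qc x0)) k n m then sqv k n m (sft K R S a c (b x0 (k + 1)))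
        else 0) = ∑ k ∈ range K, ∑ m ∈ iv (K - k) S', ∑ n ∈ iv (K - k) R',
        (if Qt K R S a c Qc k (ix k x0, n, m) then
          sqv k n m (sft K R S a c (b x0 (k + 1))) else 0) := fun x0 _ => rfl
  rw [sum_congr rfl e1]
  refine (slice' (T := fun x0 k n m => sqv k n m (sft K R S a c (b x0 (k + 1))))
    (μ := 4 * μ) (c := 16 * cP) (by positivity) (fun k hk q0 hq0 n m => ?_)
    (fun x0 hx0 => pack_grid (hP x0 hx0) a c R' S')).trans (le_of_eq (by ring))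
  have h := block_rst (R := R) (S := S) (μ := 8 ^ k * μ) (by positivity)
    ((iv k q0) ×ˢ (univ : Finset κ)) (fun i x y => b i.1 (k + 1) x y i.2) hk.le
    (fun n hn m hm => by
      rw [sum_product]
      simp only
      have h1 := hM k hk q0 hq0 n hn m hm
      simp only [sqv_eq] at h1
      exact h1) a c n m
  rw [sum_product] at h
  simp only [sqv_eq, sft_apply]
  refine h.trans (le_of_eq ?_)
  ring

/-! ### The pair sum of the family -/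

theorem path_sft {K : ℕ} {R S : ℤ} {Q : ℕ → ℤ → ℤ → Prop} {A : ℕ → ℤ → ℤ → ℝ}
    (h : Path K R S Q A) (a b R' S' : ℤ) :
    Path K R' S' (Qsh a b (Qr K R S Q)) (fun k => sft K R S a b (A k)) := path_tr h a b R' S'

theorem sft_zero' {E : Type*} [Zero E] (N : ℕ) (R S a b : ℤ) :
    sft N R S a b (0 : ℤ → ℤ → E) = 0 := by
  funext x y
  unfold H747.sft
  split_ifs <;> rfl

/-- **The static pair `(A, b)` of the shifted families at any two levels**, summed over `x₀`: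
hypotheses `hAB`, `hAB'` of `H581.stageY`. -/
theorem RX_AB (he : Function.Injective e) (hm : ∀ i, e i ∈ lbs L) {K : ℕ} {t : ℤ} {M : Pt}
    (s : Pt) {j : ℤ} (hj : j ∈ Icc (0 : ℤ) 2) (q : Pt) {A : ℤ → ℕ → ℤ → ℤ → ℝ}
    {b : ℤ → ℕ → ℤ → ℤ → κ → ℝ} {QA QB : ℕ → Pt → Prop} {cP μA μB : ℝ} (hμA : 0 ≤ μA)
    (hμB : 0 ≤ μB)
    (pA : ∀ x0 ∈ iv K t, Path K M.2.2 M.2.1 (Qx QA x0) (A x0))
    (zA : ∀ x0 ∈ iv K t, A x0 0 = 0)
    (kA : ∀ x0 ∈ iv K t, PackQ K M.2.2 M.2.1 (Qx QA x0) cP)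
    (mA : ∀ k < K, ∀ q0 ∈ iv (K - k) t, ∀ n ∈ iv (K - k) M.2.2, ∀ m ∈ iv (K - k) M.2.1,
      ∑ x0 ∈ iv k q0, sqb k n m (A x0 (k + 1)) ≤ 8 ^ k * μA)
    (pB : ∀ x0 ∈ iv K t, ∀ l, Path K M.1 M.2.1 (Qx QB x0) (fun k x y => b x0 k x y l))
    (zB : ∀ x0 ∈ iv K t, b x0 0 = 0)
    (kB : ∀ x0 ∈ iv K t, PackQ K M.1 M.2.1 (Qx QB x0) cP)
    (mB : ∀ k < K, ∀ q0 ∈ iv (K - k) t, ∀ n ∈ iv (K - k) M.1, ∀ m ∈ iv (K - k) M.2.1,
      ∑ x0 ∈ iv k q0, sqv k n m (b x0 (k + 1)) ≤ 8 ^ k * μB)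
    {x y : ℝ} (hx : 0 < x) (hy : 0 < y) :
    RX (iv K t) (K + L) (fun x0 => sL L (sG K M (-x0) s j q)) x y
      (fun x0 k m => bl k (gA L (shA K M s (A x0)) k) m.1 m.2.1)
      (fun x0 k m => bl k (gB L e (shB K M s (b x0)) k) m.2.1 m.2.2) ≤
      550 * 4 ^ L * (64 * cP * 8 ^ K) * (y ^ 2 * μA + x ^ 2 * μB) := by
  unfold H581.RX
  have h1 : ∀ x0 ∈ iv K t, RP (K + L) (sL L (sG K M (-x0) s j q)) x y
      (fun k m => bl k (gA L (shA K M s (A x0)) k) m.1 m.2.1)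
      (fun k m => bl k (gB L e (shB K M s (b x0)) k) m.2.1 m.2.2) ≤
      550 * 4 ^ L * (y ^ 2 * pwr K (rv (M - q)).1 (rv (M - q)).2.1
          (Qsh s.2.2 s.2.1 (Qr K M.2.2 M.2.1 (Qx QA x0))) (shA K M s (A x0)) +
        x ^ 2 * pwrK K (rv (M - q)).2.2 (rv (M - q)).2.1
          (Qsh s.1 s.2.1 (Qr K M.1 M.2.1 (Qx QB x0))) (shB K M s (b x0))) := by
    intro x0 hx0
    refine RP_lab_AB he hm (planes (ys (-x0) s) j hj) (R := rv (M - q))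
      (fun k _ => Subset.rfl) (path_sft (pA x0 hx0) _ _ _ _) ?_ (fun l => ?_) ?_ hx hy
    · show sft K M.2.2 M.2.1 s.2.2 s.2.1 (A x0 0) = 0
      rw [zA x0 hx0]
      exact sft_zero' ..
    · have h := path_sft (pB x0 hx0 l) s.1 s.2.1 (rv (M - q)).2.2 (rv (M - q)).2.1
      unfold H747.shB
      simp only [sft_apply]
      exact h
    · show sft K M.1 M.2.1 s.1 s.2.1 (b x0 0) = 0
      rw [zB x0 hx0]
      exact sft_zero' ..
  refine (sum_le_sum h1).trans ?_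
  rw [← mul_sum, sum_add_distrib, ← mul_sum, ← mul_sum]
  have g1 := pwr_grid hμA kA mA s.2.2 s.2.1 (rv (M - q)).1 (rv (M - q)).2.1
  have g2 := pwrK_grid hμB kB mB s.1 s.2.1 (rv (M - q)).2.2 (rv (M - q)).2.1
  have g3 := mul_le_mul_of_nonneg_left g1 (sq_nonneg y)
  have g4 := mul_le_mul_of_nonneg_left g2 (sq_nonneg x)
  have g5 := mul_le_mul_of_nonneg_left (add_le_add g3 g4)
    (by positivity : (0 : ℝ) ≤ 550 * 4 ^ L)
  exact g5.trans (le_of_eq (by ring))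

end

end Vale.Agent.P141.H972
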